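import Mathlib

/-!
# Linear circuits for the discrete Fourier transform (problem P344)

Straight-line model of a linear circuit over the complex numbers with inputs
`x 0, ..., x (n-1)` and the constant `0`.  Every gate computes `u + v`, `u - v` or `c * u`
from values computed before, and costs one.
-/

namespace Vale.Agent.Lib.P344

/-- A gate of a linear circuit.  The natural numbers are positions in the list of values
computed so far (position `0` holds the constant `0`, positions `1, ..., n` hold the inputs,
later positions hold the values of the earlier gates). -/
inductive Gate : Type
  | add (i j : ℕ) : Gate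
  | sub (i j : ℕ) : Gate
  | smul (c : ℂ) (i : ℕ) : Gate

/-- Executing one gate: the value it computes is appended to the list of values computed so
far.  A position that is out of range reads as the constant `0`. -/
def step (vs : List ℂ) : Gate → List ℂ
  | Gate.add i j => vs ++ [vs.getD i 0 + vs.getD j 0]
  | Gate.sub i j => vs ++ [vs.getD i 0 - vs.getD j 0]
  | Gate.smul c i => vs ++ [c * vs.getD i 0]

/-- All values computed by the circuit `C` (a list of gates, executed in order) on the input
`x`: the constant `0`, then the inputs `x 0, ..., x (n-1)`, then one value per gate. -/
def run {n : ℕ} (C : List Gate) (x : Fin n → ℂ) : List ℂ :=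
  C.foldl step (0 :: List.ofFn x)

/-- The circuit `C` computes the unnormalized discrete Fourier transform of length `n`:
for every output index `j` there is a designated position `p` (not depending on the input)
whose value is `∑ k, ζ ^ (j * k) * x k` for every input `x`, where `ζ = exp (2 π i / n)`. -/
def ComputesDFT (n : ℕ) (C : List Gate) : Prop :=
  ∀ j : Fin n, ∃ p : ℕ, ∀ x : Fin n → ℂ,
    (run C x).getD p 0 =
      ∑ k : Fin n, Complex.exp (2 * Real.pi * Complex.I / n) ^ ((j : ℕ) * (k : ℕ)) * x k

end Vale.Agent.Lib.P344
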