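import Mathlib
import Vale.Agent.Lib.P344.Defs

/-!
Semantic form of a circuit: the set of coefficient vectors of all values computed.
-/

namespace Vale.Agent.Lib.P344

/-- The unit coefficient vector of the input `x k`. -/
def unitVec {n : ℕ} (k : Fin n) : Fin n → ℂ := Pi.single k 1

/-- The gate acting on coefficient vectors. -/
def stepV {n : ℕ} (vs : List (Fin n → ℂ)) : Gate → List (Fin n → ℂ)
  | Gate.add i j => vs ++ [vs.getD i 0 + vs.getD j 0]
  | Gate.sub i j => vs ++ [vs.getD i 0 - vs.getD j 0]
  | Gate.smul c i => vs ++ [c • vs.getD i 0]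

/-- Coefficient vectors of all values of the circuit. -/
def runV (n : ℕ) (C : List Gate) : List (Fin n → ℂ) :=
  C.foldl stepV (0 :: List.ofFn (fun k : Fin n => unitVec k))

/-- Evaluation of a linear form with coefficient vector `v` at the input `x`. -/
def evalAt {n : ℕ} (x : Fin n → ℂ) (v : Fin n → ℂ) : ℂ := ∑ k, v k * x k

lemma evalAt_zero {n : ℕ} (x : Fin n → ℂ) : evalAt x 0 = 0 := by
  simp [evalAt]

lemma evalAt_add {n : ℕ} (x v w : Fin n → ℂ) : evalAt x (v + w) = evalAt x v + evalAt x w := by
  simp [evalAt, add_mul, Finset.sum_add_distrib]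

lemma evalAt_sub {n : ℕ} (x v w : Fin n → ℂ) : evalAt x (v - w) = evalAt x v - evalAt x w := by
  simp [evalAt, sub_mul, Finset.sum_sub_distrib]

lemma evalAt_smul {n : ℕ} (x : Fin n → ℂ) (c : ℂ) (v : Fin n → ℂ) :
    evalAt x (c • v) = c * evalAt x v := by
  simp [evalAt, Finset.mul_sum, mul_assoc]

lemma evalAt_unitVec {n : ℕ} (x : Fin n → ℂ) (k : Fin n) : evalAt x (unitVec k) = x k := by
  simp [evalAt, unitVec, Pi.single_apply]

lemma evalAt_unitVec' {n : ℕ} (v : Fin n → ℂ) (k : Fin n) : evalAt (unitVec k) v = v k := by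
  simp [evalAt, unitVec, Pi.single_apply]

lemma getD_map_evalAt {n : ℕ} (x : Fin n → ℂ) (vs : List (Fin n → ℂ)) (i : ℕ) :
    (vs.map (evalAt x)).getD i 0 = evalAt x (vs.getD i 0) := by
  rw [← evalAt_zero x, List.getD_map]

lemma step_map {n : ℕ} (x : Fin n → ℂ) (vs : List (Fin n → ℂ)) (g : Gate) :
    step (vs.map (evalAt x)) g = (stepV vs g).map (evalAt x) := by
  cases g with
  | add i j =>
    simp only [step, stepV, List.map_append, List.map_cons, List.map_nil, getD_map_evalAt,
      evalAt_add]
  | sub i j =>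
    simp only [step, stepV, List.map_append, List.map_cons, List.map_nil, getD_map_evalAt,
      evalAt_sub]
  | smul c i =>
    simp only [step, stepV, List.map_append, List.map_cons, List.map_nil, getD_map_evalAt,
      evalAt_smul]

lemma foldl_step_map {n : ℕ} (x : Fin n → ℂ) (C : List Gate) (vs : List (Fin n → ℂ)) :
    C.foldl step (vs.map (evalAt x)) = (C.foldl stepV vs).map (evalAt x) := by
  induction C generalizing vs with
  | nil => rfl
  | cons g C ih => simp only [List.foldl_cons, step_map, ih]

lemma run_eq {n : ℕ} (C : List Gate) (x : Fin n → ℂ) :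
    run C x = (runV n C).map (evalAt x) := by
  unfold run runV
  rw [← foldl_step_map]
  congr 1
  simp [evalAt_zero, List.map_ofFn, Function.comp_def, evalAt_unitVec]

/-- The semantic reachability predicate: `Reach n A M X` says that the set `X` of coefficient
vectors arises from the unit vectors and `0` by `A` additions/subtractions and `M` scalar
multiplications. -/
inductive Reach (n : ℕ) : ℕ → ℕ → Set (Fin n → ℂ) → Prop
  | init : Reach n 0 0 (insert 0 (Set.range fun k : Fin n => unitVec k))
  | addsub {A M : ℕ} {X : Set (Fin n → ℂ)} (a b v : Fin n → ℂ) :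
      Reach n A M X → a ∈ X → b ∈ X → (v = a + b ∨ v = a - b) → Reach n (A + 1) M (insert v X)
  | smul {A M : ℕ} {X : Set (Fin n → ℂ)} (c : ℂ) (a : Fin n → ℂ) :
      Reach n A M X → a ∈ X → Reach n A (M + 1) (insert (c • a) X)

lemma Reach.zero_mem {n A M : ℕ} {X : Set (Fin n → ℂ)} (h : Reach n A M X) : (0 : Fin n → ℂ) ∈ X := by
  induction h with
  | init => exact Set.mem_insert _ _
  | addsub a b v _ _ _ _ ih => exact Set.mem_insert_of_mem _ ih
  | smul c a _ _ ih => exact Set.mem_insert_of_mem _ ih

lemma Reach.unit_mem {n A M : ℕ} {X : Set (Fin n → ℂ)} (h : Reach n A M X) (k : Fin n) :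
    unitVec k ∈ X := by
  induction h with
  | init => exact Set.mem_insert_of_mem _ (Set.mem_range_self k)
  | addsub a b v _ _ _ _ ih => exact Set.mem_insert_of_mem _ ih
  | smul c a _ _ ih => exact Set.mem_insert_of_mem _ ih

lemma Reach.finite {n A M : ℕ} {X : Set (Fin n → ℂ)} (h : Reach n A M X) : X.Finite := by
  induction h with
  | init => exact (Set.finite_range _).insert _
  | addsub a b v _ _ _ _ ih => exact ih.insert _
  | smul c a _ _ ih => exact ih.insert _

lemma getD_mem_of_zero_mem {n : ℕ} (vs : List (Fin n → ℂ)) (h0 : (0 : Fin n → ℂ) ∈ vs) (i : ℕ) :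
    vs.getD i 0 ∈ vs := by
  by_cases hi : i < vs.length
  · rw [List.getD_eq_getElem _ _ hi]
    exact List.getElem_mem hi
  · rw [List.getD_eq_default _ _ (not_lt.mp hi)]
    exact h0

lemma runV_append (n : ℕ) (C : List Gate) (g : Gate) :
    runV n (C ++ [g]) = stepV (runV n C) g := by
  simp [runV, List.foldl_append]

lemma reach_runV (n : ℕ) (C : List Gate) :
    ∃ A M : ℕ, A + M = C.length ∧ Reach n A M {v | v ∈ runV n C} := by
  induction C using List.reverseRecOn with
  | nil =>
    refine ⟨0, 0, rfl, ?_⟩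
    have : {v | v ∈ runV n []} = insert 0 (Set.range fun k : Fin n => unitVec k) := by
      ext v
      simp [runV, List.mem_ofFn, eq_comm]
    rw [this]
    exact Reach.init
  | append_singleton C g ih =>
    obtain ⟨A, M, hlen, hR⟩ := ih
    have h0 : (0 : Fin n → ℂ) ∈ runV n C := hR.zero_mem
    rw [runV_append]
    cases g with
    | add i j =>
      refine ⟨A + 1, M, by simp [← hlen]; ring, ?_⟩
      have : {v | v ∈ stepV (runV n C) (Gate.add i j)} =
          insert ((runV n C).getD i 0 + (runV n C).getD j 0) {v | v ∈ runV n C} := by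
        ext v
        simp [stepV, or_comm]
      rw [this]
      exact Reach.addsub _ _ _ hR (getD_mem_of_zero_mem _ h0 i) (getD_mem_of_zero_mem _ h0 j)
        (Or.inl rfl)
    | sub i j =>
      refine ⟨A + 1, M, by simp [← hlen]; ring, ?_⟩
      have : {v | v ∈ stepV (runV n C) (Gate.sub i j)} =
          insert ((runV n C).getD i 0 - (runV n C).getD j 0) {v | v ∈ runV n C} := by
        ext v
        simp [stepV, or_comm]
      rw [this]
      exact Reach.addsub _ _ _ hR (getD_mem_of_zero_mem _ h0 i) (getD_mem_of_zero_mem _ h0 j)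
        (Or.inr rfl)
    | smul c i =>
      refine ⟨A, M + 1, by simp [← hlen]; ring, ?_⟩
      have : {v | v ∈ stepV (runV n C) (Gate.smul c i)} =
          insert (c • (runV n C).getD i 0) {v | v ∈ runV n C} := by
        ext v
        simp [stepV, or_comm]
      rw [this]
      exact Reach.smul _ _ hR (getD_mem_of_zero_mem _ h0 i)

/-- The `j`-th row of the Fourier matrix as a coefficient vector. -/
noncomputable def dftRow (n : ℕ) (j : Fin n) : Fin n → ℂ :=
  fun k => Complex.exp (2 * Real.pi * Complex.I / n) ^ ((j : ℕ) * (k : ℕ))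

lemma dftRow_mem_of_computes {n : ℕ} (hn : 1 ≤ n) {C : List Gate} (hC : ComputesDFT n C) (j : Fin n) :
    dftRow n j ∈ runV n C := by
  obtain ⟨p, hp⟩ := hC j
  have key : (runV n C).getD p 0 = dftRow n j := by
    funext k
    have := hp (unitVec k)
    rw [run_eq, getD_map_evalAt, evalAt_unitVec'] at this
    rw [this]
    simp [dftRow, unitVec, Pi.single_apply]
  by_cases hpl : p < (runV n C).length
  · rw [← key, List.getD_eq_getElem _ _ hpl]
    exact List.getElem_mem hpl
  · exfalso
    rw [List.getD_eq_default _ _ (not_lt.mp hpl)] at key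
    have h1 := congrFun key ⟨0, hn⟩
    simp [dftRow] at h1

end Vale.Agent.Lib.P344
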