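import Mathlib
import Vale.Agent.Lib.P344.Reach

/-!
Lower bound for the number of scalar multiplications: a dimension count over the rationals.
-/

namespace Vale.Agent.Lib.P344

open Polynomial

/-- The primitive root of unity `exp (2 π i / n)`. -/
noncomputable def zeta (n : ℕ) : ℂ := Complex.exp (2 * Real.pi * Complex.I / n)

lemma zeta_prim (n : ℕ) (hn : n ≠ 0) : IsPrimitiveRoot (zeta n) n :=
  Complex.isPrimitiveRoot_exp n hn

lemma dftRow_apply (n : ℕ) (j k : Fin n) : dftRow n j k = zeta n ^ ((j : ℕ) * (k : ℕ)) := rfl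

lemma zeta_ne_zero (n : ℕ) : zeta n ≠ 0 := Complex.exp_ne_zero _

lemma dftRow_ne_zero (n : ℕ) (j k : Fin n) : dftRow n j k ≠ 0 := by
  rw [dftRow_apply]
  exact pow_ne_zero _ (zeta_ne_zero n)

lemma Reach.exists_span {n A M : ℕ} {X : Set (Fin n → ℂ)} (h : Reach n A M X) :
    ∃ B : Finset (Fin n → ℂ), B.card ≤ n + M ∧
      X ⊆ Submodule.span ℚ (B : Set (Fin n → ℂ)) := by
  classical
  induction h with
  | init =>
    refine ⟨Finset.univ.image (fun k : Fin n => unitVec k), ?_, ?_⟩
    · calc (Finset.univ.image (fun k : Fin n => unitVec k)).card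
          ≤ (Finset.univ : Finset (Fin n)).card := Finset.card_image_le
        _ = n := by simp
        _ ≤ n + 0 := by omega
    · intro v hv
      rcases hv with rfl | ⟨k, rfl⟩
      · exact Submodule.zero_mem _
      · apply Submodule.subset_span
        simp
  | addsub a b v _ ha hb hv ih =>
    obtain ⟨B, hB, hX⟩ := ih
    refine ⟨B, hB, ?_⟩
    intro w hw
    rcases hw with rfl | hw
    · rcases hv with rfl | rfl
      · exact Submodule.add_mem _ (hX ha) (hX hb)
      · exact Submodule.sub_mem _ (hX ha) (hX hb)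
    · exact hX hw
  | smul c a _ ha ih =>
    obtain ⟨B, hB, hX⟩ := ih
    refine ⟨insert (c • a) B, ?_, ?_⟩
    · calc (insert (c • a) B).card ≤ B.card + 1 := Finset.card_insert_le _ _
        _ ≤ _ := by omega
    · intro w hw
      rcases hw with rfl | hw
      · apply Submodule.subset_span
        simp
      · exact Submodule.span_mono (by simp) (hX hw)

lemma unitVec_li (n : ℕ) : LinearIndependent ℚ (fun k : Fin n => unitVec k) := by
  have h : LinearIndependent ℂ (fun k : Fin n => (unitVec k : Fin n → ℂ)) := by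
    have := (Pi.basisFun ℂ (Fin n)).linearIndependent
    convert this using 1
    ext k i
    simp [unitVec, Pi.basisFun_apply]
  exact h.restrict_scalars' (R := ℚ)

lemma dftRow_li (n : ℕ) (hn : n ≠ 0) : LinearIndependent ℚ (dftRow n) := by
  have h : LinearIndependent ℂ (dftRow n) := by
    have hinj : Function.Injective (fun j : Fin n => zeta n ^ (j : ℕ)) := by
      intro i j hij
      exact Fin.ext ((zeta_prim n hn).pow_inj i.2 j.2 hij)
    have hdet := Matrix.det_vandermonde_ne_zero_iff.mpr hinj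
    have hunit : IsUnit (Matrix.vandermonde (fun j : Fin n => zeta n ^ (j : ℕ))) := by
      rw [Matrix.isUnit_iff_isUnit_det]
      exact isUnit_iff_ne_zero.mpr hdet
    have := Matrix.linearIndependent_rows_iff_isUnit.mpr hunit
    have hrow : dftRow n = (Matrix.vandermonde (fun j : Fin n => zeta n ^ (j : ℕ))).row := by
      ext j k
      simp [dftRow_apply, Matrix.vandermonde, Matrix.row, pow_mul]
    rw [hrow]
    exact this
  exact h.restrict_scalars' (R := ℚ)

/-- The order of `ζ ^ k`, as a divisor of `n`. -/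
noncomputable def ordIdx (n : ℕ) (hn : n ≠ 0) (k : Fin n) : Nat.divisors n :=
  ⟨orderOf (zeta n ^ (k : ℕ)), by
    rw [Nat.mem_divisors]
    refine ⟨?_, hn⟩
    apply orderOf_dvd_of_pow_eq_one
    rw [← pow_mul, mul_comm, pow_mul, (zeta_prim n hn).pow_eq_one, one_pow]⟩

/-- Functions on the divisors of `n`, pulled back to rational vectors constant on the sets of
indices `k` with `ζ ^ k` of a given order. -/
noncomputable def pullback (n : ℕ) (hn : n ≠ 0) : (Nat.divisors n → ℚ) →ₗ[ℚ] (Fin n → ℂ) where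
  toFun w := fun k => (w (ordIdx n hn k) : ℂ)
  map_add' := by
    intro w w'
    ext k
    simp
  map_smul' := by
    intro c w
    ext k
    simp [Rat.smul_def]

lemma inf_le_range (n : ℕ) (hn : n ≠ 0) :
    Submodule.span ℚ (Set.range fun k : Fin n => unitVec k) ⊓
        Submodule.span ℚ (Set.range (dftRow n)) ≤ LinearMap.range (pullback n hn) := by
  intro v hv
  obtain ⟨hvE, hvU⟩ := hv
  rw [SetLike.mem_coe, Submodule.mem_span_range_iff_exists_fun] at hvE hvU
  obtain ⟨w, hw⟩ := hvE
  obtain ⟨q, hq⟩ := hvU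
  have hvw : ∀ k, v k = (w k : ℂ) := by
    intro k
    rw [← hw]
    simp [unitVec, Finset.sum_apply, Pi.single_apply, Rat.smul_def]
  have hvq : ∀ k : Fin n, v k = ∑ a : Fin n, (q a : ℂ) * zeta n ^ ((a : ℕ) * (k : ℕ)) := by
    intro k
    rw [← hq]
    simp [Finset.sum_apply, dftRow_apply, Rat.smul_def]
  let Qp : ℚ[X] := ∑ a : Fin n, C (q a) * X ^ (a : ℕ)
  have hQ : ∀ k : Fin n, aeval (zeta n ^ (k : ℕ)) Qp = v k := by
    intro k
    rw [hvq]
    simp only [Qp, map_sum, map_mul, aeval_C, map_pow, aeval_X]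
    refine Finset.sum_congr rfl fun a _ => ?_
    rw [← pow_mul, mul_comm (k : ℕ)]
    rfl
  have key : ∀ k k' : Fin n, ordIdx n hn k = ordIdx n hn k' → w k = w k' := by
    intro k k' hkk
    have hd : orderOf (zeta n ^ (k : ℕ)) = orderOf (zeta n ^ (k' : ℕ)) :=
      congrArg Subtype.val hkk
    have hdpos : 0 < orderOf (zeta n ^ (k : ℕ)) := by
      apply orderOf_pos_iff.mpr
      apply isOfFinOrder_iff_pow_eq_one.mpr
      refine ⟨n, Nat.pos_of_ne_zero hn, ?_⟩
      rw [← pow_mul, mul_comm, pow_mul, (zeta_prim n hn).pow_eq_one, one_pow]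
    have hp : IsPrimitiveRoot (zeta n ^ (k : ℕ)) (orderOf (zeta n ^ (k : ℕ))) :=
      IsPrimitiveRoot.orderOf _
    have hp' : IsPrimitiveRoot (zeta n ^ (k' : ℕ)) (orderOf (zeta n ^ (k : ℕ))) := by
      rw [hd]
      exact IsPrimitiveRoot.orderOf _
    have h1 : aeval (zeta n ^ (k : ℕ)) (Qp - C (w k)) = 0 := by
      rw [map_sub, hQ, hvw, aeval_C]
      simp
    have hdiv : cyclotomic (orderOf (zeta n ^ (k : ℕ))) ℚ ∣ Qp - C (w k) := by
      rw [cyclotomic_eq_minpoly_rat hp hdpos]
      exact minpoly.dvd ℚ _ h1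
    have h2 : aeval (zeta n ^ (k' : ℕ)) (Qp - C (w k)) = 0 := by
      obtain ⟨R, hR⟩ := hdiv
      rw [hR, map_mul]
      have : aeval (zeta n ^ (k' : ℕ)) (cyclotomic (orderOf (zeta n ^ (k : ℕ))) ℚ) = 0 := by
        rw [aeval_def, eval₂_eq_eval_map, map_cyclotomic]
        exact hp'.isRoot_cyclotomic hdpos
      rw [this, zero_mul]
    have h3 : (w k' : ℂ) = (w k : ℂ) := by
      rw [map_sub, hQ, hvw, aeval_C] at h2
      have h2' : (w k' : ℂ) - (w k : ℂ) = 0 := by simpa using h2
      exact sub_eq_zero.mp h2'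
    exact_mod_cast h3.symm
  classical
  refine ⟨fun d => if h : ∃ k, ordIdx n hn k = d then w h.choose else 0, ?_⟩
  ext k
  have hex : ∃ k', ordIdx n hn k' = ordIdx n hn k := ⟨k, rfl⟩
  simp only [pullback, LinearMap.coe_mk, AddHom.coe_mk]
  rw [dif_pos hex, hvw, key _ _ hex.choose_spec]

theorem scalar_bound {n A M : ℕ} (hn : 1 ≤ n) {X : Set (Fin n → ℂ)} (h : Reach n A M X)
    (hrows : ∀ j, dftRow n j ∈ X) : n ≤ M + (Nat.divisors n).card := by
  have hn0 : n ≠ 0 := by omega
  obtain ⟨B, hB, hX⟩ := h.exists_span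
  have hEW : Submodule.span ℚ (Set.range fun k : Fin n => unitVec k) ≤
      Submodule.span ℚ (B : Set (Fin n → ℂ)) :=
    Submodule.span_le.mpr (by rintro _ ⟨k, rfl⟩; exact hX (h.unit_mem k))
  have hUW : Submodule.span ℚ (Set.range (dftRow n)) ≤
      Submodule.span ℚ (B : Set (Fin n → ℂ)) :=
    Submodule.span_le.mpr (by rintro _ ⟨j, rfl⟩; exact hX (hrows j))
  have hfE : Module.finrank ℚ (Submodule.span ℚ (Set.range fun k : Fin n => unitVec k)) = n := by
    rw [finrank_span_eq_card (unitVec_li n)]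
    simp
  have hfU : Module.finrank ℚ (Submodule.span ℚ (Set.range (dftRow n))) = n := by
    rw [finrank_span_eq_card (dftRow_li n hn0)]
    simp
  have hfW : Module.finrank ℚ (Submodule.span ℚ (B : Set (Fin n → ℂ))) ≤ n + M :=
    le_trans (finrank_span_finset_le_card B) hB
  have : FiniteDimensional ℚ (Submodule.span ℚ (B : Set (Fin n → ℂ))) :=
    FiniteDimensional.span_finset ℚ B
  have : FiniteDimensional ℚ (Submodule.span ℚ (Set.range fun k : Fin n => unitVec k)) :=
    FiniteDimensional.span_of_finite ℚ (Set.finite_range _)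
  have : FiniteDimensional ℚ (Submodule.span ℚ (Set.range (dftRow n))) :=
    FiniteDimensional.span_of_finite ℚ (Set.finite_range _)
  have hsup : Module.finrank ℚ (Submodule.span ℚ (Set.range fun k : Fin n => unitVec k) ⊔
      Submodule.span ℚ (Set.range (dftRow n)) : Submodule ℚ (Fin n → ℂ)) ≤
      Module.finrank ℚ (Submodule.span ℚ (B : Set (Fin n → ℂ))) :=
    Submodule.finrank_mono (sup_le hEW hUW)
  have hinf : Module.finrank ℚ (Submodule.span ℚ (Set.range fun k : Fin n => unitVec k) ⊓
      Submodule.span ℚ (Set.range (dftRow n)) : Submodule ℚ (Fin n → ℂ)) ≤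
      (Nat.divisors n).card := by
    calc _ ≤ Module.finrank ℚ (LinearMap.range (pullback n hn0)) :=
          Submodule.finrank_mono (inf_le_range n hn0)
      _ ≤ Module.finrank ℚ (Nat.divisors n → ℚ) := LinearMap.finrank_range_le _
      _ = (Nat.divisors n).card := by simp
  have hsum := Submodule.finrank_sup_add_finrank_inf_eq
    (Submodule.span ℚ (Set.range fun k : Fin n => unitVec k))
    (Submodule.span ℚ (Set.range (dftRow n)))
  omega

end Vale.Agent.Lib.P344
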