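import Mathlib
import Vale.Agent.Lib.P344.Scalar

/-!
Lines (one-dimensional subspaces) spanned by the coefficient vectors of a circuit, and the
structure of the set of computed vectors.
-/

namespace Vale.Agent.Lib.P344

/-- The line spanned by a vector (the zero subspace for the zero vector). -/
noncomputable def line {n : ℕ} (v : Fin n → ℂ) : Submodule ℂ (Fin n → ℂ) := Submodule.span ℂ {v}

/-- `Par v w`: the vector `w` is a nonzero multiple of `v`. -/
def Par {n : ℕ} (v w : Fin n → ℂ) : Prop := ∃ c : ℂ, c ≠ 0 ∧ w = c • v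

lemma line_eq_iff {n : ℕ} (v w : Fin n → ℂ) : line v = line w ↔ Par v w := by
  unfold line Par
  rw [Submodule.span_singleton_eq_span_singleton]
  constructor
  · rintro ⟨z, hz⟩
    exact ⟨(z : ℂ), z.ne_zero, by rw [← hz]; rfl⟩
  · rintro ⟨c, hc, hw⟩
    exact ⟨Units.mk0 c hc, by rw [hw]; rfl⟩

lemma Par.refl {n : ℕ} (v : Fin n → ℂ) : Par v v := ⟨1, one_ne_zero, (one_smul _ _).symm⟩

lemma Par.symm {n : ℕ} {v w : Fin n → ℂ} (h : Par v w) : Par w v := by
  obtain ⟨c, hc, rfl⟩ := h
  exact ⟨c⁻¹, inv_ne_zero hc, by rw [smul_smul, inv_mul_cancel₀ hc, one_smul]⟩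

lemma Par.trans {n : ℕ} {u v w : Fin n → ℂ} (h : Par u v) (h' : Par v w) : Par u w := by
  obtain ⟨c, hc, rfl⟩ := h
  obtain ⟨d, hd, rfl⟩ := h'
  exact ⟨d * c, mul_ne_zero hd hc, by rw [smul_smul]⟩

lemma Par.smul {n : ℕ} (v : Fin n → ℂ) {c : ℂ} (hc : c ≠ 0) : Par v (c • v) := ⟨c, hc, rfl⟩

lemma Par.map {n : ℕ} {v w : Fin n → ℂ} (h : Par v w) (f : (Fin n → ℂ) →ₗ[ℂ] (Fin n → ℂ)) :
    Par (f v) (f w) := by
  obtain ⟨c, hc, rfl⟩ := h
  exact ⟨c, hc, by rw [map_smul]⟩

lemma Par.eq_zero_iff {n : ℕ} {v w : Fin n → ℂ} (h : Par v w) : v = 0 ↔ w = 0 := by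
  obtain ⟨c, hc, rfl⟩ := h
  simp [hc]

lemma Par.apply_eq_zero_iff {n : ℕ} {v w : Fin n → ℂ} (h : Par v w) (k : Fin n) :
    v k = 0 ↔ w k = 0 := by
  obtain ⟨c, hc, rfl⟩ := h
  simp [hc]

/-- `Generated S₀ S`: every property that holds on `S₀` and passes from two members of `S` to
every member of `S` in their span holds on all of `S`. -/
def Generated {n : ℕ} (S₀ S : Set (Fin n → ℂ)) : Prop :=
  ∀ Q : (Fin n → ℂ) → Prop, (∀ v ∈ S₀, Q v) →
    (∀ a ∈ S, ∀ b ∈ S, ∀ v ∈ S, Q a → Q b → v ∈ Submodule.span ℂ {a, b} → Q v) →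
    ∀ v ∈ S, Q v

lemma Reach.generated {n A M : ℕ} {X : Set (Fin n → ℂ)} (h : Reach n A M X) :
    Generated (insert 0 (Set.range fun k : Fin n => unitVec k)) X := by
  induction h with
  | init =>
    intro Q h0 _ v hv
    exact h0 v hv
  | @addsub A M X a b v _ ha hb hv ih =>
    intro Q h0 hstep w hw
    have hX : ∀ x ∈ X, Q x := by
      apply ih Q h0
      intro a' ha' b' hb' v' hv' hQa hQb hspan
      exact hstep a' (Set.mem_insert_of_mem _ ha') b' (Set.mem_insert_of_mem _ hb') v'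
        (Set.mem_insert_of_mem _ hv') hQa hQb hspan
    rcases hw with rfl | hw
    · refine hstep a (Set.mem_insert_of_mem _ ha) b (Set.mem_insert_of_mem _ hb) w
        (Set.mem_insert _ _) (hX a ha) (hX b hb) ?_
      have ha' : a ∈ Submodule.span ℂ ({a, b} : Set (Fin n → ℂ)) :=
        Submodule.subset_span (by simp)
      have hb' : b ∈ Submodule.span ℂ ({a, b} : Set (Fin n → ℂ)) :=
        Submodule.subset_span (by simp)
      rcases hv with rfl | rfl
      · exact Submodule.add_mem _ ha' hb'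
      · exact Submodule.sub_mem _ ha' hb'
    · exact hX w hw
  | @smul A M X c a _ ha ih =>
    intro Q h0 hstep w hw
    have hX : ∀ x ∈ X, Q x := by
      apply ih Q h0
      intro a' ha' b' hb' v' hv' hQa hQb hspan
      exact hstep a' (Set.mem_insert_of_mem _ ha') b' (Set.mem_insert_of_mem _ hb') v'
        (Set.mem_insert_of_mem _ hv') hQa hQb hspan
    rcases hw with rfl | hw
    · refine hstep a (Set.mem_insert_of_mem _ ha) a (Set.mem_insert_of_mem _ ha) _
        (Set.mem_insert _ _) (hX a ha) (hX a ha) ?_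
      exact Submodule.smul_mem _ _ (Submodule.subset_span (by simp))
    · exact hX w hw

lemma Reach.ncard_lines_le {n A M : ℕ} {X : Set (Fin n → ℂ)} (h : Reach n A M X) :
    (line '' X).ncard ≤ A + n + 1 := by
  induction h with
  | init =>
    rw [Set.image_insert_eq]
    refine le_trans (Set.ncard_insert_le _ _) ?_
    have h1 : (line '' Set.range fun k : Fin n => unitVec k).ncard ≤ n := by
      refine le_trans (Set.ncard_image_le (Set.finite_range _)) ?_
      rw [← Set.image_univ]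
      refine le_trans (Set.ncard_image_le Set.finite_univ) ?_
      simp [Set.ncard_univ]
    omega
  | @addsub A M X a b v hR _ _ _ ih =>
    rw [Set.image_insert_eq]
    have := Set.ncard_insert_le (line v) (line '' X)
    omega
  | @smul A M X c a hR ha ih =>
    rw [Set.image_insert_eq]
    have hmem : line (c • a) ∈ line '' X := by
      by_cases hc : c = 0
      · refine ⟨0, hR.zero_mem, ?_⟩
        rw [hc, zero_smul]
      · exact ⟨a, ha, (line_eq_iff _ _).mpr (Par.smul a hc)⟩
    rw [Set.insert_eq_of_mem hmem]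
    exact ih

end Vale.Agent.Lib.P344
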