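import Mathlib
import Vale.Agent.Lib.P344.Lines

/-!
First consequences: the output lines are pairwise distinct and differ from the input lines.
-/

namespace Vale.Agent.Lib.P344

lemma dftRow_zero_right {n : ℕ} (hn : 1 ≤ n) (j : Fin n) : dftRow n j ⟨0, hn⟩ = 1 := by
  simp [dftRow_apply]

lemma dftRow_one_right {n : ℕ} (hn : 2 ≤ n) (j : Fin n) :
    dftRow n j ⟨1, hn⟩ = zeta n ^ (j : ℕ) := by
  simp [dftRow_apply]

lemma dftRow_par {n : ℕ} (hn : 2 ≤ n) {j j' : Fin n} (h : Par (dftRow n j) (dftRow n j')) :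
    j = j' := by
  obtain ⟨c, hc, hcj⟩ := h
  have h0 := congrFun hcj ⟨0, by omega⟩
  have h1 := congrFun hcj ⟨1, hn⟩
  simp only [Pi.smul_apply, smul_eq_mul] at h0 h1
  rw [dftRow_zero_right (by omega), dftRow_zero_right (by omega)] at h0
  rw [dftRow_one_right hn, dftRow_one_right hn] at h1
  have hc1 : c = 1 := by rw [mul_one] at h0; exact h0.symm
  rw [hc1, one_mul] at h1
  exact (Fin.ext ((zeta_prim n (by omega)).pow_inj j'.2 j.2 h1)).symm

lemma unitVec_apply_self {n : ℕ} (k : Fin n) : unitVec k k = 1 := by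
  simp [unitVec]

lemma unitVec_apply_ne {n : ℕ} {k k' : Fin n} (h : k' ≠ k) : unitVec k k' = 0 := by
  simp [unitVec, h]

lemma unitVec_ne_zero {n : ℕ} (k : Fin n) : unitVec k ≠ 0 := by
  intro h
  have := congrFun h k
  rw [unitVec_apply_self] at this
  exact one_ne_zero this

lemma dftRow_ne_zero' {n : ℕ} (hn : 1 ≤ n) (j : Fin n) : dftRow n j ≠ 0 := by
  intro h
  exact dftRow_ne_zero n j ⟨0, hn⟩ (congrFun h _)

lemma not_par_unitVec_dftRow {n : ℕ} (hn : 2 ≤ n) (k j : Fin n) :
    ¬ Par (unitVec k) (dftRow n j) := by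
  rintro ⟨c, hc, h⟩
  obtain ⟨k', hk'⟩ : ∃ k' : Fin n, k' ≠ k := by
    by_cases h0 : k = ⟨0, by omega⟩
    · exact ⟨⟨1, hn⟩, by rw [h0]; simp [Fin.ext_iff]⟩
    · exact ⟨⟨0, by omega⟩, fun h' => h0 h'.symm⟩
  have := congrFun h k'
  simp only [Pi.smul_apply, smul_eq_mul, unitVec_apply_ne hk', mul_zero] at this
  exact dftRow_ne_zero n j k' this

lemma par_unitVec {n : ℕ} {k k' : Fin n} (h : Par (unitVec k) (unitVec k')) : k = k' := by
  obtain ⟨c, hc, h⟩ := h
  by_contra hne
  have := congrFun h k'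
  simp only [Pi.smul_apply, smul_eq_mul, unitVec_apply_self,
    unitVec_apply_ne (fun h' => hne h'.symm), mul_zero] at this
  exact one_ne_zero this

/-- The `2 n + 1` lines spanned by `0`, the unit vectors and the rows of the Fourier matrix
are pairwise distinct. -/
lemma two_n_lines {n : ℕ} (hn : 2 ≤ n) {X : Set (Fin n → ℂ)} (hfin : X.Finite)
    (h0 : (0 : Fin n → ℂ) ∈ X) (hunit : ∀ k, unitVec k ∈ X) (hrows : ∀ j, dftRow n j ∈ X) :
    2 * n + 1 ≤ (line '' X).ncard := by
  let f : Option (Fin n ⊕ Fin n) → (Fin n → ℂ) := fun o =>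
    match o with
    | none => 0
    | some (Sum.inl k) => unitVec k
    | some (Sum.inr j) => dftRow n j
  have hf : ∀ o, f o ∈ X := by
    intro o
    rcases o with _ | k | j
    · exact h0
    · exact hunit k
    · exact hrows j
  have hinj : Function.Injective (fun o => line (f o)) := by
    intro o o' h
    have hpar : Par (f o) (f o') := (line_eq_iff _ _).mp h
    rcases o with _ | k | j <;> rcases o' with _ | k' | j'
    · rfl
    · exact absurd (hpar.eq_zero_iff.mp rfl) (unitVec_ne_zero k')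
    · exact absurd (hpar.eq_zero_iff.mp rfl) (dftRow_ne_zero' (by omega) j')
    · exact absurd (hpar.eq_zero_iff.mpr rfl) (unitVec_ne_zero k)
    · rw [par_unitVec hpar]
    · exact absurd hpar (not_par_unitVec_dftRow hn k j')
    · exact absurd (hpar.eq_zero_iff.mpr rfl) (dftRow_ne_zero' (by omega) j)
    · exact absurd hpar.symm (not_par_unitVec_dftRow hn k' j)
    · rw [dftRow_par hn hpar]
  have hsub : Set.range (fun o => line (f o)) ⊆ line '' X := by
    rintro _ ⟨o, rfl⟩
    exact ⟨f o, hf o, rfl⟩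
  have hcard : (Set.range (fun o => line (f o))).ncard = 2 * n + 1 := by
    rw [Set.ncard_range_of_injective hinj]
    simp [Nat.card_eq_fintype_card]
    ring
  rw [← hcard]
  exact Set.ncard_le_ncard hsub (hfin.image _)

/-- Interim bound: at least `n` additions/subtractions. -/
theorem addsub_bound_weak {n A M : ℕ} (hn : 2 ≤ n) {X : Set (Fin n → ℂ)} (h : Reach n A M X)
    (hrows : ∀ j, dftRow n j ∈ X) : n ≤ A := by
  have h1 := two_n_lines hn h.finite h.zero_mem h.unit_mem hrows
  have h2 := h.ncard_lines_le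
  omega

/-- Interim theorem: every circuit computing the transform has at least
`2 n - τ(n)` gates. -/
theorem weak_bound (n : ℕ) (hn : 2 ≤ n) (C : List Gate) (hC : ComputesDFT n C) :
    2 * n ≤ C.length + (Nat.divisors n).card := by
  obtain ⟨A, M, hlen, hR⟩ := reach_runV n C
  have hrows : ∀ j, dftRow n j ∈ {v | v ∈ runV n C} :=
    fun j => dftRow_mem_of_computes (by omega) hC j
  have h1 := addsub_bound_weak hn hR hrows
  have h2 := scalar_bound (by omega) hR hrows
  omega

end Vale.Agent.Lib.P344
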