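import Mathlib
import Vale.Agent.Lib.P344.Scalar

/-!
Scalar multiplications, part 1: pairing of coefficient vectors with rational inputs, the
rational span of the computed vectors, and the first scalar gate that is not rational on a
given rational subspace of inputs.
-/

namespace Vale.Agent.Lib.P344

/-- The value of the linear form with coefficient vector `v` at the rational input `s`. -/
noncomputable def pairQ {n : ℕ} (v : Fin n → ℂ) (s : Fin n → ℚ) : ℂ := ∑ k, v k * (s k : ℂ)

lemma pairQ_add_left {n : ℕ} (v w : Fin n → ℂ) (s : Fin n → ℚ) :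
    pairQ (v + w) s = pairQ v s + pairQ w s := by
  simp [pairQ, add_mul, Finset.sum_add_distrib]

lemma pairQ_smul_left {n : ℕ} (c : ℂ) (v : Fin n → ℂ) (s : Fin n → ℚ) :
    pairQ (c • v) s = c * pairQ v s := by
  simp [pairQ, Finset.mul_sum, mul_assoc]

lemma pairQ_qsmul_left {n : ℕ} (q : ℚ) (v : Fin n → ℂ) (s : Fin n → ℚ) :
    pairQ (q • v) s = (q : ℂ) * pairQ v s := by
  simp [pairQ, Finset.mul_sum, mul_assoc, Rat.smul_def]

lemma pairQ_zero_left {n : ℕ} (s : Fin n → ℚ) : pairQ (0 : Fin n → ℂ) s = 0 := by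
  simp [pairQ]

lemma pairQ_add_right {n : ℕ} (v : Fin n → ℂ) (s t : Fin n → ℚ) :
    pairQ v (s + t) = pairQ v s + pairQ v t := by
  simp [pairQ, mul_add, Finset.sum_add_distrib]

lemma pairQ_smul_right {n : ℕ} (v : Fin n → ℂ) (q : ℚ) (s : Fin n → ℚ) :
    pairQ v (q • s) = (q : ℂ) * pairQ v s := by
  simp only [pairQ, Finset.mul_sum, Pi.smul_apply, smul_eq_mul, Rat.cast_mul]
  refine Finset.sum_congr rfl fun k _ => ?_
  ring

lemma pairQ_zero_right {n : ℕ} (v : Fin n → ℂ) : pairQ v (0 : Fin n → ℚ) = 0 := by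
  simp [pairQ]

lemma pairQ_unitVec {n : ℕ} (k : Fin n) (s : Fin n → ℚ) : pairQ (unitVec k) s = (s k : ℂ) := by
  simp [pairQ, unitVec, Pi.single_apply]

/-- The pairing as a rational linear map in the coefficient vector. -/
noncomputable def pairL {n : ℕ} (s : Fin n → ℚ) : (Fin n → ℂ) →ₗ[ℚ] ℂ where
  toFun v := pairQ v s
  map_add' v w := pairQ_add_left v w s
  map_smul' q v := by
    rw [pairQ_qsmul_left]
    simp [Rat.smul_def]

lemma pairL_apply {n : ℕ} (s : Fin n → ℚ) (v : Fin n → ℂ) : pairL s v = pairQ v s := rfl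

/-- The coefficient vectors whose linear form takes rational values on `S`. -/
def ratOn {n : ℕ} (S : Submodule ℚ (Fin n → ℚ)) : Submodule ℚ (Fin n → ℂ) where
  carrier := {v | ∀ s ∈ S, ∃ q : ℚ, pairQ v s = (q : ℂ)}
  add_mem' := by
    intro v w hv hw s hs
    obtain ⟨q, hq⟩ := hv s hs
    obtain ⟨r, hr⟩ := hw s hs
    exact ⟨q + r, by rw [pairQ_add_left, hq, hr]; push_cast; ring⟩
  zero_mem' := by
    intro s _
    exact ⟨0, by rw [pairQ_zero_left]; simp⟩
  smul_mem' := by
    intro c v hv s hs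
    obtain ⟨q, hq⟩ := hv s hs
    exact ⟨c * q, by rw [pairQ_qsmul_left, hq]; push_cast; ring⟩

lemma mem_ratOn {n : ℕ} {S : Submodule ℚ (Fin n → ℚ)} {v : Fin n → ℂ} :
    v ∈ ratOn S ↔ ∀ s ∈ S, ∃ q : ℚ, pairQ v s = (q : ℂ) := Iff.rfl

/-- The coefficient vectors whose linear form vanishes on `S`. -/
def perpQ {n : ℕ} (S : Submodule ℚ (Fin n → ℚ)) : Submodule ℚ (Fin n → ℂ) where
  carrier := {v | ∀ s ∈ S, pairQ v s = 0}
  add_mem' := by
    intro v w hv hw s hs
    rw [pairQ_add_left, hv s hs, hw s hs, add_zero]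
  zero_mem' := by
    intro s _
    exact pairQ_zero_left s
  smul_mem' := by
    intro c v hv s hs
    rw [pairQ_qsmul_left, hv s hs, mul_zero]

lemma mem_perpQ {n : ℕ} {S : Submodule ℚ (Fin n → ℚ)} {v : Fin n → ℂ} :
    v ∈ perpQ S ↔ ∀ s ∈ S, pairQ v s = 0 := Iff.rfl

lemma perpQ_anti {n : ℕ} {H S : Submodule ℚ (Fin n → ℚ)} (h : H ≤ S) : perpQ S ≤ perpQ H :=
  fun _ hv s hs => hv s (h hs)

lemma unitVec_mem_ratOn {n : ℕ} (S : Submodule ℚ (Fin n → ℚ)) (k : Fin n) :
    unitVec k ∈ ratOn S := fun s _ => ⟨s k, pairQ_unitVec k s⟩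

/-- The first scalar gate that is not rational on `S`: if some rational combination of the
computed vectors is not rational on `S`, then there is a scalar `c` and a rational combination
`w` of computed vectors, rational on `S`, such that `c • w` is again a rational combination of
computed vectors and is not rational on `S`. -/
lemma Reach.first_gate {n A M : ℕ} {X : Set (Fin n → ℂ)} (h : Reach n A M X)
    (S : Submodule ℚ (Fin n → ℚ)) (hex : ∃ v ∈ Submodule.span ℚ X, v ∉ ratOn S) :
    ∃ w ∈ Submodule.span ℚ X, ∃ c : ℂ, w ∈ ratOn S ∧ c • w ∈ Submodule.span ℚ X ∧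
      c • w ∉ ratOn S := by
  induction h with
  | init =>
    exfalso
    obtain ⟨v, hv, hvS⟩ := hex
    apply hvS
    have hle : Submodule.span ℚ (insert (0 : Fin n → ℂ) (Set.range fun k : Fin n => unitVec k)) ≤
        ratOn S := by
      apply Submodule.span_le.mpr
      rintro x (rfl | ⟨k, rfl⟩)
      · exact Submodule.zero_mem _
      · exact unitVec_mem_ratOn S k
    exact hle hv
  | @addsub A M X a b v _ ha hb hv ih =>
    have hmem : v ∈ Submodule.span ℚ X := by
      rcases hv with rfl | rfl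
      · exact Submodule.add_mem _ (Submodule.subset_span ha) (Submodule.subset_span hb)
      · exact Submodule.sub_mem _ (Submodule.subset_span ha) (Submodule.subset_span hb)
    have heq : Submodule.span ℚ (insert v X) = Submodule.span ℚ X :=
      Submodule.span_insert_eq_span hmem
    rw [heq] at hex ⊢
    exact ih hex
  | @smul A M X c a _ ha ih =>
    have hsub : Submodule.span ℚ X ≤ Submodule.span ℚ (insert (c • a) X) :=
      Submodule.span_mono (Set.subset_insert _ _)
    by_cases hall : ∃ v ∈ Submodule.span ℚ X, v ∉ ratOn S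
    · obtain ⟨w, hw, c', hwS, hcw, hcwS⟩ := ih hall
      exact ⟨w, hsub hw, c', hwS, hsub hcw, hcwS⟩
    · have hall' : ∀ v ∈ Submodule.span ℚ X, v ∈ ratOn S := by
        intro v hv
        by_contra hcon
        exact hall ⟨v, hv, hcon⟩
      obtain ⟨v, hv, hvS⟩ := hex
      obtain ⟨q, z, hz, rfl⟩ := Submodule.mem_span_insert.mp hv
      refine ⟨a, hsub (Submodule.subset_span ha), c, hall' a (Submodule.subset_span ha),
        Submodule.subset_span (Set.mem_insert _ _), ?_⟩
      intro hca
      exact hvS (Submodule.add_mem _ (Submodule.smul_mem _ q hca) (hall' z hz))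

lemma Reach.finrank_span_le {n A M : ℕ} {X : Set (Fin n → ℂ)} (h : Reach n A M X) :
    Module.finrank ℚ (Submodule.span ℚ X) ≤ n + M := by
  obtain ⟨B, hB, hX⟩ := h.exists_span
  have : FiniteDimensional ℚ (Submodule.span ℚ (B : Set (Fin n → ℂ))) :=
    FiniteDimensional.span_finset ℚ B
  calc Module.finrank ℚ (Submodule.span ℚ X)
      ≤ Module.finrank ℚ (Submodule.span ℚ (B : Set (Fin n → ℂ))) :=
        Submodule.finrank_mono (Submodule.span_le.mpr hX)
    _ ≤ B.card := finrank_span_finset_le_card B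
    _ ≤ n + M := hB

lemma Reach.finiteDimensional_span {n A M : ℕ} {X : Set (Fin n → ℂ)} (h : Reach n A M X) :
    FiniteDimensional ℚ (Submodule.span ℚ X) :=
  FiniteDimensional.span_of_finite ℚ h.finite

end Vale.Agent.Lib.P344
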