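import Mathlib
import Vale.Agent.Lib.P344.MulBase

/-!
Scalar multiplications, part 2: dimension counts for the computed forms that vanish on a
rational subspace of inputs.
-/

namespace Vale.Agent.Lib.P344

/-- The dimension over `ℚ` of the members of `V` whose linear form vanishes on `S`. -/
noncomputable def dperp {n : ℕ} (V : Submodule ℚ (Fin n → ℂ)) (S : Submodule ℚ (Fin n → ℚ)) : ℕ :=
  Module.finrank ℚ ↥(V ⊓ perpQ S)

/-- Rational vectors as complex coefficient vectors. -/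
noncomputable def coeLin (n : ℕ) : (Fin n → ℚ) →ₗ[ℚ] (Fin n → ℂ) where
  toFun s := fun k => (s k : ℂ)
  map_add' s t := by
    ext k
    simp
  map_smul' q s := by
    ext k
    simp [Rat.smul_def]

lemma coeLin_apply {n : ℕ} (s : Fin n → ℚ) (k : Fin n) : coeLin n s k = (s k : ℂ) := rfl

lemma coeLin_injective (n : ℕ) : Function.Injective (coeLin n) := by
  intro s t hst
  ext k
  have := congrFun hst k
  simpa [coeLin_apply] using this

lemma coeLin_eq_sum {n : ℕ} (s : Fin n → ℚ) : coeLin n s = ∑ k, s k • unitVec k := by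
  ext j
  simp [coeLin_apply, unitVec, Finset.sum_apply, Pi.single_apply, Rat.smul_def]

lemma coeLin_mem {n : ℕ} {V : Submodule ℚ (Fin n → ℂ)} (hunit : ∀ k, unitVec k ∈ V)
    (s : Fin n → ℚ) : coeLin n s ∈ V := by
  rw [coeLin_eq_sum]
  exact Submodule.sum_mem _ fun k _ => Submodule.smul_mem _ _ (hunit k)

lemma pairQ_coeLin_self {n : ℕ} (s : Fin n → ℚ) :
    pairQ (coeLin n s) s = ((∑ k, s k * s k : ℚ) : ℂ) := by
  simp [pairQ, coeLin_apply]

lemma dperp_add_finrank_le {n : ℕ} (V : Submodule ℚ (Fin n → ℂ)) [FiniteDimensional ℚ V]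
    (hunit : ∀ k, unitVec k ∈ V) (S : Submodule ℚ (Fin n → ℚ)) :
    dperp V S + Module.finrank ℚ S ≤ Module.finrank ℚ V := by
  have hle1 : V ⊓ perpQ S ≤ V := inf_le_left
  have hle2 : S.map (coeLin n) ≤ V := by
    rintro _ ⟨s, _, rfl⟩
    exact coeLin_mem hunit s
  have hdisj : (V ⊓ perpQ S) ⊓ S.map (coeLin n) = ⊥ := by
    rw [eq_bot_iff]
    rintro x ⟨⟨_, hx1⟩, ⟨s, hs, rfl⟩⟩
    have h0 := hx1 s hs
    rw [pairQ_coeLin_self] at h0
    have h1 : (∑ k, s k * s k : ℚ) = 0 := by exact_mod_cast h0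
    have h2 : ∀ k ∈ Finset.univ, s k * s k = 0 :=
      (Finset.sum_eq_zero_iff_of_nonneg fun k _ => mul_self_nonneg (s k)).mp h1
    have h3 : s = 0 := by
      ext k
      exact mul_self_eq_zero.mp (h2 k (Finset.mem_univ k))
    rw [h3, map_zero]
    exact Submodule.zero_mem _
  have : FiniteDimensional ℚ ↥(V ⊓ perpQ S) := Submodule.finiteDimensional_of_le hle1
  have : FiniteDimensional ℚ ↥(S.map (coeLin n)) := Submodule.finiteDimensional_of_le hle2
  have hsum := Submodule.finrank_sup_add_finrank_inf_eq (V ⊓ perpQ S) (S.map (coeLin n))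
  rw [hdisj, finrank_bot, add_zero] at hsum
  have hmap : Module.finrank ℚ ↥(S.map (coeLin n)) = Module.finrank ℚ S :=
    (Submodule.equivMapOfInjective (coeLin n) (coeLin_injective n) S).finrank_eq.symm
  have hmono : Module.finrank ℚ ↥((V ⊓ perpQ S) ⊔ S.map (coeLin n)) ≤ Module.finrank ℚ V :=
    Submodule.finrank_mono (sup_le hle1 hle2)
  unfold dperp
  omega

/-- Forms in `V` that vanish on `H` and whose values at a point `a` of `S` are linearly
independent over `ℚ` are independent modulo the forms vanishing on `S`. -/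
lemma dperp_step {n : ℕ} (V : Submodule ℚ (Fin n → ℂ)) [FiniteDimensional ℚ V]
    {H S : Submodule ℚ (Fin n → ℚ)} (hHS : H ≤ S) {a : Fin n → ℚ} (ha : a ∈ S)
    {ι : Type} [Fintype ι] (t : ι → (Fin n → ℂ)) (ht : ∀ i, t i ∈ V ⊓ perpQ H)
    (hli : LinearIndependent ℚ (fun i => pairQ (t i) a)) :
    dperp V S + Fintype.card ι ≤ dperp V H := by
  have hli' : LinearIndependent ℚ t := LinearIndependent.of_comp (pairL a) hli
  have hle1 : V ⊓ perpQ S ≤ V ⊓ perpQ H := inf_le_inf_left V (perpQ_anti hHS)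
  have hle2 : Submodule.span ℚ (Set.range t) ≤ V ⊓ perpQ H := by
    apply Submodule.span_le.mpr
    rintro _ ⟨i, rfl⟩
    exact ht i
  have hdisj : (V ⊓ perpQ S) ⊓ Submodule.span ℚ (Set.range t) = ⊥ := by
    rw [eq_bot_iff]
    rintro x ⟨⟨_, hx1⟩, hx2⟩
    obtain ⟨α, rfl⟩ := (Submodule.mem_span_range_iff_exists_fun ℚ).mp hx2
    have h0 : pairL a (∑ i, α i • t i) = 0 := hx1 a ha
    rw [map_sum] at h0
    simp only [map_smul, pairL_apply] at h0
    have h1 := (Fintype.linearIndependent_iff.mp hli) α h0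
    simp [h1]
  have hV2 : V ⊓ perpQ H ≤ V := inf_le_left
  have : FiniteDimensional ℚ ↥(V ⊓ perpQ H) := Submodule.finiteDimensional_of_le hV2
  have : FiniteDimensional ℚ ↥(V ⊓ perpQ S) := Submodule.finiteDimensional_of_le (le_trans hle1 hV2)
  have : FiniteDimensional ℚ ↥(Submodule.span ℚ (Set.range t)) :=
    Submodule.finiteDimensional_of_le (le_trans hle2 hV2)
  have hsum := Submodule.finrank_sup_add_finrank_inf_eq (V ⊓ perpQ S) (Submodule.span ℚ (Set.range t))
  rw [hdisj, finrank_bot, add_zero, finrank_span_eq_card hli'] at hsum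
  have hmono : Module.finrank ℚ ↥((V ⊓ perpQ S) ⊔ Submodule.span ℚ (Set.range t)) ≤
      Module.finrank ℚ ↥(V ⊓ perpQ H) :=
    Submodule.finrank_mono (sup_le hle1 hle2)
  unfold dperp
  omega

/-- The part of `S` on which the form with coefficient vector `w` vanishes. -/
def cutBy {n : ℕ} (S : Submodule ℚ (Fin n → ℚ)) (w : Fin n → ℂ) : Submodule ℚ (Fin n → ℚ) where
  carrier := {s | s ∈ S ∧ pairQ w s = 0}
  add_mem' := by
    rintro s t ⟨hs, hs0⟩ ⟨ht, ht0⟩
    exact ⟨S.add_mem hs ht, by rw [pairQ_add_right, hs0, ht0, add_zero]⟩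
  zero_mem' := ⟨S.zero_mem, pairQ_zero_right w⟩
  smul_mem' := by
    rintro q s ⟨hs, hs0⟩
    exact ⟨S.smul_mem q hs, by rw [pairQ_smul_right, hs0, mul_zero]⟩

lemma mem_cutBy {n : ℕ} {S : Submodule ℚ (Fin n → ℚ)} {w : Fin n → ℂ} {s : Fin n → ℚ} :
    s ∈ cutBy S w ↔ s ∈ S ∧ pairQ w s = 0 := Iff.rfl

lemma cutBy_le {n : ℕ} (S : Submodule ℚ (Fin n → ℚ)) (w : Fin n → ℂ) : cutBy S w ≤ S :=
  fun _ hs => hs.1

lemma le_cutBy_sup {n : ℕ} {S : Submodule ℚ (Fin n → ℚ)} {w : Fin n → ℂ} (hw : w ∈ ratOn S)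
    {a : Fin n → ℚ} (ha : a ∈ S) (hwa : pairQ w a ≠ 0) :
    S ≤ cutBy S w ⊔ Submodule.span ℚ {a} := by
  intro s hs
  obtain ⟨q, hq⟩ := hw s hs
  obtain ⟨r, hr⟩ := hw a ha
  have hr0 : r ≠ 0 := by
    rintro rfl
    exact hwa (by rw [hr]; simp)
  have h1 : s - (q / r) • a ∈ cutBy S w := by
    refine ⟨S.sub_mem hs (S.smul_mem _ ha), ?_⟩
    have : s - (q / r) • a = s + (-(q / r)) • a := by
      rw [neg_smul, sub_eq_add_neg]
    rw [this, pairQ_add_right, pairQ_smul_right, hq, hr]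
    push_cast
    have hr0' : (r : ℂ) ≠ 0 := by exact_mod_cast hr0
    field_simp
    ring
  have h2 : s = (s - (q / r) • a) + (q / r) • a := by abel
  rw [h2]
  exact Submodule.add_mem _ (Submodule.mem_sup_left h1)
    (Submodule.mem_sup_right (Submodule.smul_mem _ _ (Submodule.mem_span_singleton_self a)))

lemma finrank_le_of_le_sup_span {n : ℕ} {H S : Submodule ℚ (Fin n → ℚ)} {a : Fin n → ℚ}
    (h : S ≤ H ⊔ Submodule.span ℚ {a}) : Module.finrank ℚ S ≤ Module.finrank ℚ H + 1 := by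
  calc Module.finrank ℚ S ≤ Module.finrank ℚ ↥(H ⊔ Submodule.span ℚ {a}) := Submodule.finrank_mono h
    _ ≤ Module.finrank ℚ H + Module.finrank ℚ ↥(Submodule.span ℚ {a}) :=
        Submodule.finrank_add_le_finrank_add_finrank _ _
    _ ≤ Module.finrank ℚ H + 1 := by
        have h1 : Module.finrank ℚ ↥(Submodule.span ℚ ({a} : Set (Fin n → ℚ))) ≤ 1 := by
          have h2 := finrank_span_finset_le_card (R := ℚ) ({a} : Finset (Fin n → ℚ))
          simp only [Finset.coe_singleton, Finset.card_singleton] at h2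
          exact h2
        omega

/-- The step of the induction: a scalar gate that is rational on `S` but whose multiple is not
gives a strictly smaller subspace `H` of `S` with at least two more forms vanishing on it. -/
lemma cut_step {n : ℕ} (V : Submodule ℚ (Fin n → ℂ)) [FiniteDimensional ℚ V]
    (S : Submodule ℚ (Fin n → ℚ)) {w : Fin n → ℂ} {c : ℂ} (hw : w ∈ V) (hwS : w ∈ ratOn S)
    (hcw : c • w ∈ V) (hcwS : c • w ∉ ratOn S) :
    ∃ a ∈ S, a ∉ cutBy S w ∧ S ≤ cutBy S w ⊔ Submodule.span ℚ {a} ∧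
      dperp V S + 2 ≤ dperp V (cutBy S w) := by
  have hex : ∃ a ∈ S, pairQ w a ≠ 0 := by
    by_contra hcon
    apply hcwS
    intro s hs
    have : pairQ w s = 0 := by
      by_contra h0
      exact hcon ⟨s, hs, h0⟩
    exact ⟨0, by rw [pairQ_smul_left, this]; simp⟩
  obtain ⟨a, ha, hwa⟩ := hex
  obtain ⟨r, hr⟩ := hwS a ha
  have hr0 : (r : ℂ) ≠ 0 := by
    rw [← hr]
    exact hwa
  have hcq : ∀ q : ℚ, c ≠ (q : ℂ) := by
    rintro q rfl
    apply hcwS
    intro s hs
    obtain ⟨q', hq'⟩ := hwS s hs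
    exact ⟨q * q', by rw [pairQ_smul_left, hq']; push_cast; ring⟩
  refine ⟨a, ha, fun h => hwa h.2, le_cutBy_sup hwS ha hwa, ?_⟩
  let t : Fin 2 → (Fin n → ℂ) := ![w, c • w]
  have ht : ∀ i, t i ∈ V ⊓ perpQ (cutBy S w) := by
    intro i
    fin_cases i
    · exact ⟨hw, fun s hs => hs.2⟩
    · exact ⟨hcw, fun s hs => by
        change pairQ (c • w) s = 0
        rw [pairQ_smul_left, hs.2, mul_zero]⟩
  have hli : LinearIndependent ℚ (fun i => pairQ (t i) a) := by
    rw [Fintype.linearIndependent_iff]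
    intro α hα
    rw [Fin.sum_univ_two] at hα
    have h0 : pairQ (t 0) a = (r : ℂ) := hr
    have h1 : pairQ (t 1) a = c * (r : ℂ) := by
      change pairQ (c • w) a = _
      rw [pairQ_smul_left, hr]
    rw [h0, h1] at hα
    simp only [Rat.smul_def] at hα
    have hα' : ((α 0 : ℂ) + (α 1 : ℂ) * c) * (r : ℂ) = 0 := by
      rw [← hα]
      ring
    have hα'' : (α 0 : ℂ) + (α 1 : ℂ) * c = 0 := by
      rcases mul_eq_zero.mp hα' with h | h
      · exact h
      · exact absurd h hr0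
    have hα1 : α 1 = 0 := by
      by_contra hne
      have hne' : (α 1 : ℂ) ≠ 0 := by exact_mod_cast hne
      apply hcq (-(α 0) / α 1)
      push_cast
      field_simp
      linear_combination hα''
    have hα0 : α 0 = 0 := by
      rw [hα1] at hα''
      simp only [Rat.cast_zero, zero_mul, add_zero] at hα''
      exact_mod_cast hα''
    intro i
    fin_cases i
    · exact hα0
    · exact hα1
  have := dperp_step V (cutBy_le S w) ha t ht hli
  simpa using this

end Vale.Agent.Lib.P344
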