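import Mathlib
import Vale.Agent.Lib.P344.MulStep

/-!
Scalar multiplications, part 3: the annihilating polynomial of an operator on a rational
subspace of inputs, and the potential argument.
-/

namespace Vale.Agent.Lib.P344

open Polynomial

/-- The polynomials `q` for which `q(P)` vanishes on `S`. -/
def annIdeal {n : ℕ} (P : Module.End ℚ (Fin n → ℚ)) (S : Submodule ℚ (Fin n → ℚ)) :
    Ideal ℚ[X] where
  carrier := {q | ∀ s ∈ S, aeval P q s = 0}
  add_mem' := by
    intro q r hq hr s hs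
    rw [map_add, LinearMap.add_apply, hq s hs, hr s hs, add_zero]
  zero_mem' := by
    intro s _
    rw [map_zero, LinearMap.zero_apply]
  smul_mem' := by
    intro c q hq s hs
    rw [smul_eq_mul, map_mul, Module.End.mul_apply, hq s hs, map_zero]

lemma mem_annIdeal {n : ℕ} {P : Module.End ℚ (Fin n → ℚ)} {S : Submodule ℚ (Fin n → ℚ)}
    {q : ℚ[X]} : q ∈ annIdeal P S ↔ ∀ s ∈ S, aeval P q s = 0 := Iff.rfl

/-- The generator of the annihilating ideal. -/
noncomputable def annGen {n : ℕ} (P : Module.End ℚ (Fin n → ℚ)) (S : Submodule ℚ (Fin n → ℚ)) :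
    ℚ[X] :=
  Submodule.IsPrincipal.generator (annIdeal P S)

/-- The degree of the annihilating polynomial. -/
noncomputable def annDeg {n : ℕ} (P : Module.End ℚ (Fin n → ℚ)) (S : Submodule ℚ (Fin n → ℚ)) :
    ℕ :=
  (annGen P S).natDegree

/-- The number of irreducible factors of the annihilating polynomial. -/
noncomputable def annFac {n : ℕ} (P : Module.End ℚ (Fin n → ℚ)) (S : Submodule ℚ (Fin n → ℚ)) :
    ℕ :=
  Multiset.card (UniqueFactorizationMonoid.normalizedFactors (annGen P S))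

lemma annGen_mem {n : ℕ} (P : Module.End ℚ (Fin n → ℚ)) (S : Submodule ℚ (Fin n → ℚ)) :
    annGen P S ∈ annIdeal P S :=
  Submodule.IsPrincipal.generator_mem _

lemma mem_annIdeal_iff_dvd {n : ℕ} {P : Module.End ℚ (Fin n → ℚ)}
    {S : Submodule ℚ (Fin n → ℚ)} {q : ℚ[X]} : q ∈ annIdeal P S ↔ annGen P S ∣ q :=
  Submodule.IsPrincipal.mem_iff_generator_dvd _

lemma annGen_dvd_of_le {n : ℕ} {P : Module.End ℚ (Fin n → ℚ)}
    {H S : Submodule ℚ (Fin n → ℚ)} (h : H ≤ S) : annGen P H ∣ annGen P S :=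
  mem_annIdeal_iff_dvd.mp fun s hs => annGen_mem P S s (h hs)

lemma pow_sub_one_mem {n : ℕ} {P : Module.End ℚ (Fin n → ℚ)} {N : ℕ} (hPN : P ^ N = 1)
    (S : Submodule ℚ (Fin n → ℚ)) : (X ^ N - 1 : ℚ[X]) ∈ annIdeal P S := by
  intro s _
  simp [hPN]

lemma X_pow_sub_one_ne {N : ℕ} (hN : 0 < N) : (X ^ N - 1 : ℚ[X]) ≠ 0 := by
  have h := (monic_X_pow_sub_C (1 : ℚ) hN.ne').ne_zero
  simpa using h

lemma annGen_ne_zero {n : ℕ} {P : Module.End ℚ (Fin n → ℚ)} {N : ℕ} (hN : 0 < N)
    (hPN : P ^ N = 1) (S : Submodule ℚ (Fin n → ℚ)) : annGen P S ≠ 0 := by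
  intro h0
  have h := mem_annIdeal_iff_dvd.mp (pow_sub_one_mem hPN S)
  rw [h0, zero_dvd_iff] at h
  exact X_pow_sub_one_ne hN h

lemma annDeg_mono {n : ℕ} {P : Module.End ℚ (Fin n → ℚ)} {N : ℕ} (hN : 0 < N)
    (hPN : P ^ N = 1) {H S : Submodule ℚ (Fin n → ℚ)} (h : H ≤ S) :
    annDeg P H ≤ annDeg P S :=
  natDegree_le_of_dvd (annGen_dvd_of_le h) (annGen_ne_zero hN hPN S)

lemma annFac_mono {n : ℕ} {P : Module.End ℚ (Fin n → ℚ)} {N : ℕ} (hN : 0 < N)
    (hPN : P ^ N = 1) {H S : Submodule ℚ (Fin n → ℚ)} (h : H ≤ S) :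
    annFac P H ≤ annFac P S :=
  Multiset.card_le_card
    ((UniqueFactorizationMonoid.dvd_iff_normalizedFactors_le_normalizedFactors
      (annGen_ne_zero hN hPN H) (annGen_ne_zero hN hPN S)).mp (annGen_dvd_of_le h))

lemma annFac_lt {n : ℕ} {P : Module.End ℚ (Fin n → ℚ)} {N : ℕ} (hN : 0 < N)
    (hPN : P ^ N = 1) {H S : Submodule ℚ (Fin n → ℚ)} (h : H ≤ S)
    (hdeg : annDeg P H < annDeg P S) : annFac P H < annFac P S := by
  have hle := (UniqueFactorizationMonoid.dvd_iff_normalizedFactors_le_normalizedFactors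
      (annGen_ne_zero hN hPN H) (annGen_ne_zero hN hPN S)).mp (annGen_dvd_of_le h)
  by_contra hcon
  have heq := Multiset.eq_of_le_of_card_le hle (not_lt.mp hcon)
  have hass := (UniqueFactorizationMonoid.associated_iff_normalizedFactors_eq_normalizedFactors
      (annGen_ne_zero hN hPN H) (annGen_ne_zero hN hPN S)).mpr heq
  have hd : annDeg P H = annDeg P S :=
    natDegree_eq_of_degree_eq (degree_eq_degree_of_associated hass)
  omega

lemma card_factors_X_pow_sub_one {N : ℕ} (hN : 0 < N) :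
    Multiset.card (UniqueFactorizationMonoid.normalizedFactors (X ^ N - 1 : ℚ[X])) =
      (Nat.divisors N).card := by
  rw [← prod_cyclotomic_eq_X_pow_sub_one hN ℚ, Finset.prod_eq_multiset_prod,
    UniqueFactorizationMonoid.normalizedFactors_prod_eq]
  · simp
  · intro a ha
    obtain ⟨d, hd, rfl⟩ := Multiset.mem_map.mp ha
    exact cyclotomic.irreducible_rat (Nat.pos_of_mem_divisors hd)

lemma annFac_le_divisors {n : ℕ} {P : Module.End ℚ (Fin n → ℚ)} {N : ℕ} (hN : 0 < N)
    (hPN : P ^ N = 1) (S : Submodule ℚ (Fin n → ℚ)) : annFac P S ≤ (Nat.divisors N).card := by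
  rw [← card_factors_X_pow_sub_one hN]
  exact Multiset.card_le_card
    ((UniqueFactorizationMonoid.dvd_iff_normalizedFactors_le_normalizedFactors
      (annGen_ne_zero hN hPN S) (X_pow_sub_one_ne hN)).mp
      (mem_annIdeal_iff_dvd.mp (pow_sub_one_mem hPN S)))

/-- The pairing as a rational linear map in the input. -/
noncomputable def pairR {n : ℕ} (v : Fin n → ℂ) : (Fin n → ℚ) →ₗ[ℚ] ℂ where
  toFun s := pairQ v s
  map_add' s t := pairQ_add_right v s t
  map_smul' q s := by
    rw [pairQ_smul_right]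
    simp [Rat.smul_def]

lemma pairR_apply {n : ℕ} (v : Fin n → ℂ) (s : Fin n → ℚ) : pairR v s = pairQ v s := rfl

/-- Multiples of the annihilating polynomial of `H` by `1, X, X^2, ...` give independent values
at a point `a` that together with `H` spans `S`. -/
lemma ann_li {n : ℕ} {P : Module.End ℚ (Fin n → ℚ)} {N : ℕ} (hN : 0 < N) (hPN : P ^ N = 1)
    {S0 H S : Submodule ℚ (Fin n → ℚ)} (hS0 : ∀ q : ℚ[X], ∀ s ∈ S0, aeval P q s ∈ S0)
    (f1 : Fin n → ℂ) (hinj : ∀ s ∈ S0, pairQ f1 s = 0 → s = 0)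
    (hHS : H ≤ S) (hS : S ≤ S0) {a : Fin n → ℚ} (ha : a ∈ S)
    (hsup : S ≤ H ⊔ Submodule.span ℚ {a}) :
    LinearIndependent ℚ (fun i : Fin (annDeg P S - annDeg P H) =>
      pairQ f1 (aeval P (X ^ (i : ℕ) * annGen P H) a)) := by
  rw [Fintype.linearIndependent_iff]
  intro α hα
  have hr : ∃ r : ℚ[X], r = ∑ i : Fin (annDeg P S - annDeg P H), C (α i) * X ^ (i : ℕ) :=
    ⟨_, rfl⟩
  obtain ⟨r, hr⟩ := hr
  have h1 : pairQ f1 (aeval P (r * annGen P H) a) = 0 := by
    rw [← hα, hr, Finset.sum_mul, map_sum, LinearMap.sum_apply, ← pairR_apply, map_sum]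
    refine Finset.sum_congr rfl fun i _ => ?_
    rw [mul_assoc, map_mul, aeval_C, Module.End.mul_apply, Module.algebraMap_end_apply, map_smul,
      pairR_apply]
  have h2 : aeval P (r * annGen P H) a = 0 :=
    hinj _ (hS0 _ a (hS ha)) h1
  have h3 : r * annGen P H ∈ annIdeal P S := by
    intro s hs
    obtain ⟨h, hh, y, hy, rfl⟩ := Submodule.mem_sup.mp (hsup hs)
    obtain ⟨c, rfl⟩ := Submodule.mem_span_singleton.mp hy
    rw [map_add, map_smul, h2, smul_zero, add_zero, map_mul, Module.End.mul_apply,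
      annGen_mem P H h hh, map_zero]
  have h4 : annGen P S ∣ r * annGen P H := mem_annIdeal_iff_dvd.mp h3
  have h5 : r = 0 := by
    by_contra hr0
    have hg0 : annGen P H ≠ 0 := annGen_ne_zero hN hPN H
    have hdeg1 : (annGen P S).natDegree ≤ (r * annGen P H).natDegree :=
      natDegree_le_of_dvd h4 (mul_ne_zero hr0 hg0)
    rw [natDegree_mul hr0 hg0] at hdeg1
    have hdeg2 : r.natDegree < annDeg P S - annDeg P H := by
      rw [natDegree_lt_iff_degree_lt hr0, hr]
      exact degree_sum_fin_lt α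
    have hmono := annDeg_mono hN hPN hHS (P := P)
    unfold annDeg at hdeg2 hmono
    omega
  intro i
  have hc : r.coeff (i : ℕ) = α i := by
    rw [hr, finsetSum_coeff, Finset.sum_eq_single i]
    · simp
    · intro j _ hji
      rw [coeff_C_mul, coeff_X_pow, if_neg, mul_zero]
      exact fun h => hji (Fin.ext h.symm)
    · intro h
      exact absurd (Finset.mem_univ i) h
  rw [← hc, h5, coeff_zero]

/-- The potential inequality, for every rational subspace `S` of `S0`. -/
theorem potential_bound {n : ℕ} (V : Submodule ℚ (Fin n → ℂ)) [FiniteDimensional ℚ V]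
    (hunit : ∀ k, unitVec k ∈ V)
    (hfg : ∀ S : Submodule ℚ (Fin n → ℚ), (∃ v ∈ V, v ∉ ratOn S) →
      ∃ w ∈ V, ∃ c : ℂ, w ∈ ratOn S ∧ c • w ∈ V ∧ c • w ∉ ratOn S)
    (P : Module.End ℚ (Fin n → ℚ)) {N : ℕ} (hN : 0 < N) (hPN : P ^ N = 1)
    (S0 : Submodule ℚ (Fin n → ℚ)) (hS0 : ∀ q : ℚ[X], ∀ s ∈ S0, aeval P q s ∈ S0)
    (f1 : Fin n → ℂ) (hinj : ∀ s ∈ S0, pairQ f1 s = 0 → s = 0)
    (hΘ : ∀ q : ℚ[X], ∃ v ∈ V, ∀ b : Fin n → ℚ, pairQ v b = pairQ f1 (aeval P q b))
    (hend : ∀ S : Submodule ℚ (Fin n → ℚ), S ≤ S0 → (∀ v ∈ V, v ∈ ratOn S) →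
      Module.finrank ℚ S + annDeg P S ≤ 2 * annFac P S) :
    ∀ k : ℕ, ∀ S : Submodule ℚ (Fin n → ℚ), S ≤ S0 → Module.finrank ℚ S = k →
      2 * Module.finrank ℚ S + annDeg P S + dperp V S ≤
        Module.finrank ℚ V + 2 * annFac P S := by
  intro k
  induction k using Nat.strong_induction_on with
  | _ k ih =>
    intro S hS hk
    by_cases hall : ∀ v ∈ V, v ∈ ratOn S
    · have h1 := hend S hS hall
      have h2 := dperp_add_finrank_le V hunit S
      omega
    · have hex : ∃ v ∈ V, v ∉ ratOn S := by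
        by_contra hcon
        apply hall
        intro v hv
        by_contra hv'
        exact hcon ⟨v, hv, hv'⟩
      obtain ⟨w, hw, c, hwS, hcw, hcwS⟩ := hfg S hex
      obtain ⟨a, ha, haH, hsup, hD⟩ := cut_step V S hw hwS hcw hcwS
      have hHS : cutBy S w ≤ S := cutBy_le S w
      have hlt : cutBy S w < S := lt_of_le_of_ne hHS (fun h => haH (by rw [h]; exact ha))
      have hfin : Module.finrank ℚ (cutBy S w) < Module.finrank ℚ S :=
        Submodule.finrank_lt_finrank_of_lt hlt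
      have hfin2 := finrank_le_of_le_sup_span hsup
      have hih := ih (Module.finrank ℚ (cutBy S w)) (hk ▸ hfin) (cutBy S w) (le_trans hHS hS) rfl
      have ha1 := annDeg_mono hN hPN hHS (P := P)
      have hF1 := annFac_mono hN hPN hHS (P := P)
      have hF2 := annFac_lt hN hPN hHS (P := P)
      choose Θ hΘV hΘp using hΘ
      have hli := ann_li hN hPN hS0 f1 hinj hHS hS ha hsup
      have ht : ∀ i : Fin (annDeg P S - annDeg P (cutBy S w)),
          Θ (X ^ (i : ℕ) * annGen P (cutBy S w)) ∈ V ⊓ perpQ (cutBy S w) := by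
        intro i
        refine ⟨hΘV _, fun s hs => ?_⟩
        rw [hΘp, map_mul, Module.End.mul_apply, annGen_mem P (cutBy S w) s hs, map_zero,
          pairQ_zero_right]
      have hli' : LinearIndependent ℚ (fun i : Fin (annDeg P S - annDeg P (cutBy S w)) =>
          pairQ (Θ (X ^ (i : ℕ) * annGen P (cutBy S w))) a) := by
        have heq : (fun i : Fin (annDeg P S - annDeg P (cutBy S w)) =>
            pairQ (Θ (X ^ (i : ℕ) * annGen P (cutBy S w))) a) =
            (fun i : Fin (annDeg P S - annDeg P (cutBy S w)) =>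
              pairQ f1 (aeval P (X ^ (i : ℕ) * annGen P (cutBy S w)) a)) :=
          funext fun i => hΘp _ a
        rw [heq]
        exact hli
      have hstep := dperp_step V hHS ha _ ht hli'
      rw [Fintype.card_fin] at hstep
      rcases Nat.lt_or_ge (annDeg P (cutBy S w)) (annDeg P S) with hlt' | hge'
      · have := hF2 hlt'
        omega
      · omega

end Vale.Agent.Lib.P344
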