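import Mathlib
import Vale.Agent.Lib.P344.MulPoly

/-!
Chains of subspaces that are mapped into themselves by an operator of finite order: an
integer-valued function that is strictly monotone on such subspaces of a finite sum of cyclic
subspaces, and small.
-/

namespace Vale.Agent.Lib.P344

open Polynomial

section Chain

variable {E : Type} [AddCommGroup E] [Module ℚ E]

/-- `InvSub Q T`: the subspace `T` is mapped into itself by `Q`. -/
def InvSub (Q : Module.End ℚ E) (T : Submodule ℚ E) : Prop := ∀ x ∈ T, Q x ∈ T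

lemma InvSub.pow_mem {Q : Module.End ℚ E} {T : Submodule ℚ E} (h : InvSub Q T) {x : E} (hx : x ∈ T)
    (i : ℕ) : (Q ^ i) x ∈ T := by
  induction i with
  | zero => simpa using hx
  | succ i ih =>
    rw [pow_succ', Module.End.mul_apply]
    exact h _ ih

lemma InvSub.aeval_mem {Q : Module.End ℚ E} {T : Submodule ℚ E} (h : InvSub Q T) (q : ℚ[X]) {x : E}
    (hx : x ∈ T) : aeval Q q x ∈ T := by
  rw [aeval_eq_sum_range, LinearMap.sum_apply]
  refine Submodule.sum_mem _ fun i _ => ?_
  rw [LinearMap.smul_apply]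
  exact Submodule.smul_mem _ _ (h.pow_mem hx i)

lemma InvSub.sup {Q : Module.End ℚ E} {T U : Submodule ℚ E} (hT : InvSub Q T) (hU : InvSub Q U) :
    InvSub Q (T ⊔ U) := by
  intro x hx
  obtain ⟨t, ht, u, hu, rfl⟩ := Submodule.mem_sup.mp hx
  rw [map_add]
  exact Submodule.add_mem _ (Submodule.mem_sup_left (hT t ht)) (Submodule.mem_sup_right (hU u hu))

lemma InvSub.bot (Q : Module.End ℚ E) : InvSub Q (⊥ : Submodule ℚ E) := by
  intro x hx
  rw [Submodule.mem_bot] at hx
  rw [hx, map_zero]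
  exact Submodule.zero_mem _

/-- The polynomials in `Q` applied to `g`, as a linear map. -/
noncomputable def polyAct (Q : Module.End ℚ E) (g : E) : ℚ[X] →ₗ[ℚ] E where
  toFun q := aeval Q q g
  map_add' q r := by rw [map_add, LinearMap.add_apply]
  map_smul' c q := by
    rw [map_smul, LinearMap.smul_apply]
    rfl

lemma polyAct_apply (Q : Module.End ℚ E) (g : E) (q : ℚ[X]) : polyAct Q g q = aeval Q q g := rfl

/-- The cyclic subspace generated by `g`. -/
noncomputable def cycSpan (Q : Module.End ℚ E) (g : E) : Submodule ℚ E :=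
  LinearMap.range (polyAct Q g)

lemma mem_cycSpan {Q : Module.End ℚ E} {g x : E} :
    x ∈ cycSpan Q g ↔ ∃ q : ℚ[X], aeval Q q g = x := LinearMap.mem_range

lemma pow_mem_cycSpan (Q : Module.End ℚ E) (g : E) (t : ℕ) : (Q ^ t) g ∈ cycSpan Q g :=
  mem_cycSpan.mpr ⟨X ^ t, by rw [map_pow, aeval_X]⟩

lemma cycSpan_inv (Q : Module.End ℚ E) (g : E) : InvSub Q (cycSpan Q g) := by
  intro x hx
  obtain ⟨q, rfl⟩ := mem_cycSpan.mp hx
  exact mem_cycSpan.mpr ⟨X * q, by rw [map_mul, aeval_X, Module.End.mul_apply]⟩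

/-- The sum of the cyclic subspaces generated by the first components of a list. -/
noncomputable def gspan (Q : Module.End ℚ E) : List (E × ℕ) → Submodule ℚ E
  | [] => ⊥
  | p :: gs => cycSpan Q p.1 ⊔ gspan Q gs

lemma gspan_inv (Q : Module.End ℚ E) : ∀ gs : List (E × ℕ), InvSub Q (gspan Q gs)
  | [] => InvSub.bot Q
  | p :: gs => (cycSpan_inv Q p.1).sup (gspan_inv Q gs)

lemma cycSpan_le_gspan (Q : Module.End ℚ E) :
    ∀ (gs : List (E × ℕ)) (p : E × ℕ), p ∈ gs → cycSpan Q p.1 ≤ gspan Q gs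
  | [], p, hp => absurd hp List.not_mem_nil
  | p' :: gs, p, hp => by
    rcases List.mem_cons.mp hp with rfl | hp'
    · exact le_sup_left
    · exact le_trans (cycSpan_le_gspan Q gs p hp') le_sup_right

/-- The polynomials `q` such that `q(Q) g` and all its polynomial multiples lie in `U`. -/
def relIdeal (Q : Module.End ℚ E) (U : Submodule ℚ E) (g : E) : Ideal ℚ[X] where
  carrier := {q | ∀ r : ℚ[X], aeval Q (r * q) g ∈ U}
  add_mem' := by
    intro q q' hq hq' r
    rw [mul_add, map_add, LinearMap.add_apply]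
    exact U.add_mem (hq r) (hq' r)
  zero_mem' := by
    intro r
    rw [mul_zero, map_zero, LinearMap.zero_apply]
    exact U.zero_mem
  smul_mem' := by
    intro c q hq r
    rw [smul_eq_mul, ← mul_assoc]
    exact hq (r * c)

lemma mem_relIdeal_iff {Q : Module.End ℚ E} {U : Submodule ℚ E} (hU : InvSub Q U) {g : E}
    {q : ℚ[X]} : q ∈ relIdeal Q U g ↔ aeval Q q g ∈ U := by
  constructor
  · intro h
    have := h 1
    rwa [one_mul] at this
  · intro h r
    rw [map_mul, Module.End.mul_apply]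
    exact hU.aeval_mem r h

lemma relIdeal_mono (Q : Module.End ℚ E) {U U' : Submodule ℚ E} (h : U ≤ U') (g : E) :
    relIdeal Q U g ≤ relIdeal Q U' g :=
  fun _ hq r => h (hq r)

/-- The generator of `relIdeal`. -/
noncomputable def relGen (Q : Module.End ℚ E) (U : Submodule ℚ E) (g : E) : ℚ[X] :=
  Submodule.IsPrincipal.generator (relIdeal Q U g)

/-- The number of irreducible factors of the generator of `relIdeal`. -/
noncomputable def relFac (Q : Module.End ℚ E) (U : Submodule ℚ E) (g : E) : ℕ :=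
  Multiset.card (UniqueFactorizationMonoid.normalizedFactors (relGen Q U g))

lemma relGen_mem (Q : Module.End ℚ E) (U : Submodule ℚ E) (g : E) :
    relGen Q U g ∈ relIdeal Q U g :=
  Submodule.IsPrincipal.generator_mem _

lemma mem_relIdeal_iff_dvd {Q : Module.End ℚ E} {U : Submodule ℚ E} {g : E} {q : ℚ[X]} :
    q ∈ relIdeal Q U g ↔ relGen Q U g ∣ q :=
  Submodule.IsPrincipal.mem_iff_generator_dvd _

lemma pow_sub_one_mem_relIdeal {Q : Module.End ℚ E} {U : Submodule ℚ E} (hU : InvSub Q U) {g : E}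
    {m : ℕ} (hm : (Q ^ m) g = g) : (X ^ m - 1 : ℚ[X]) ∈ relIdeal Q U g := by
  rw [mem_relIdeal_iff hU, map_sub, map_pow, aeval_X, map_one, LinearMap.sub_apply, hm,
    Module.End.one_apply, sub_self]
  exact U.zero_mem

lemma relGen_ne_zero {Q : Module.End ℚ E} {U : Submodule ℚ E} (hU : InvSub Q U) {g : E}
    {m : ℕ} (hm0 : 0 < m) (hm : (Q ^ m) g = g) : relGen Q U g ≠ 0 := by
  intro h0
  have h := mem_relIdeal_iff_dvd.mp (pow_sub_one_mem_relIdeal hU hm)
  rw [h0, zero_dvd_iff] at h
  exact X_pow_sub_one_ne hm0 h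

lemma relFac_le {Q : Module.End ℚ E} {U : Submodule ℚ E} (hU : InvSub Q U) {g : E}
    {m : ℕ} (hm0 : 0 < m) (hm : (Q ^ m) g = g) : relFac Q U g ≤ (Nat.divisors m).card := by
  rw [← card_factors_X_pow_sub_one hm0]
  exact Multiset.card_le_card
    ((UniqueFactorizationMonoid.dvd_iff_normalizedFactors_le_normalizedFactors
      (relGen_ne_zero hU hm0 hm) (X_pow_sub_one_ne hm0)).mp
      (mem_relIdeal_iff_dvd.mp (pow_sub_one_mem_relIdeal hU hm)))

lemma relGen_dvd {Q : Module.End ℚ E} {U U' : Submodule ℚ E} (h : U ≤ U') (g : E) :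
    relGen Q U' g ∣ relGen Q U g :=
  mem_relIdeal_iff_dvd.mp (relIdeal_mono Q h g (relGen_mem Q U g))

lemma relFac_anti {Q : Module.End ℚ E} {U U' : Submodule ℚ E} (hU : InvSub Q U) (hU' : InvSub Q U')
    (h : U ≤ U') {g : E} {m : ℕ} (hm0 : 0 < m) (hm : (Q ^ m) g = g) :
    relFac Q U' g ≤ relFac Q U g :=
  Multiset.card_le_card
    ((UniqueFactorizationMonoid.dvd_iff_normalizedFactors_le_normalizedFactors
      (relGen_ne_zero hU' hm0 hm) (relGen_ne_zero hU hm0 hm)).mp (relGen_dvd h g))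

lemma relIdeal_eq_of_relFac_eq {Q : Module.End ℚ E} {U U' : Submodule ℚ E} (hU : InvSub Q U)
    (hU' : InvSub Q U') (h : U ≤ U') {g : E} {m : ℕ} (hm0 : 0 < m) (hm : (Q ^ m) g = g)
    (heq : relFac Q U g = relFac Q U' g) : relIdeal Q U' g ≤ relIdeal Q U g := by
  have hle := (UniqueFactorizationMonoid.dvd_iff_normalizedFactors_le_normalizedFactors
      (relGen_ne_zero hU' hm0 hm) (relGen_ne_zero hU hm0 hm)).mp (relGen_dvd h g)
  have heq' := Multiset.eq_of_le_of_card_le hle (le_of_eq heq)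
  have hass := (UniqueFactorizationMonoid.associated_iff_normalizedFactors_eq_normalizedFactors
      (relGen_ne_zero hU' hm0 hm) (relGen_ne_zero hU hm0 hm)).mpr heq'
  intro q hq
  exact mem_relIdeal_iff_dvd.mpr (dvd_trans hass.symm.dvd (mem_relIdeal_iff_dvd.mp hq))

/-- The potential of a subspace `T` with respect to a list of generators with periods. -/
noncomputable def gpot (Q : Module.End ℚ E) (T : Submodule ℚ E) : List (E × ℕ) → ℕ
  | [] => 0
  | p :: gs => ((Nat.divisors p.2).card - relFac Q (T ⊔ gspan Q gs) p.1) + gpot Q T gs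

/-- Every listed generator is fixed by the listed positive power of `Q`. -/
def Periodic (Q : Module.End ℚ E) (gs : List (E × ℕ)) : Prop :=
  ∀ p ∈ gs, 0 < p.2 ∧ (Q ^ p.2) p.1 = p.1

lemma gpot_le_sum (Q : Module.End ℚ E) (T : Submodule ℚ E) :
    ∀ gs : List (E × ℕ), gpot Q T gs ≤ (gs.map fun p => (Nat.divisors p.2).card).sum
  | [] => le_refl 0
  | p :: gs => by
    have ih := gpot_le_sum Q T gs
    simp only [gpot, List.map_cons, List.sum_cons]
    omega

lemma gpot_mono {Q : Module.End ℚ E} {T T' : Submodule ℚ E} (hT : InvSub Q T) (hT' : InvSub Q T')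
    (h : T ≤ T') : ∀ gs : List (E × ℕ), Periodic Q gs → gpot Q T gs ≤ gpot Q T' gs
  | [], _ => le_refl 0
  | p :: gs, hper => by
    have ih := gpot_mono hT hT' h gs (fun p' hp' => hper p' (List.mem_cons_of_mem _ hp'))
    obtain ⟨hm0, hm⟩ := hper p List.mem_cons_self
    have h1 := relFac_anti (hT.sup (gspan_inv Q gs)) (hT'.sup (gspan_inv Q gs))
      (sup_le_sup_right h (gspan Q gs)) hm0 hm
    simp only [gpot]
    omega

lemma gpot_eq_imp {Q : Module.End ℚ E} {T T' : Submodule ℚ E} (hT : InvSub Q T) (hT' : InvSub Q T')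
    (h : T ≤ T') : ∀ gs : List (E × ℕ), Periodic Q gs → gpot Q T gs = gpot Q T' gs →
      T' ⊓ (T ⊔ gspan Q gs) ≤ T
  | [], _, _ => by
    simp only [gspan, sup_bot_eq]
    exact inf_le_right
  | p :: gs, hper, heq => by
    have hper' : Periodic Q gs := fun p' hp' => hper p' (List.mem_cons_of_mem _ hp')
    have hmono := gpot_mono hT hT' h gs hper'
    obtain ⟨hm0, hm⟩ := hper p List.mem_cons_self
    have hI := hT.sup (gspan_inv Q gs)
    have hI' := hT'.sup (gspan_inv Q gs)
    have hle : T ⊔ gspan Q gs ≤ T' ⊔ gspan Q gs := sup_le_sup_right h (gspan Q gs)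
    have h1 := relFac_anti hI hI' hle hm0 hm
    have h2 := relFac_le hI hm0 hm
    simp only [gpot] at heq
    have htail : gpot Q T gs = gpot Q T' gs := by omega
    have hhead : relFac Q (T ⊔ gspan Q gs) p.1 = relFac Q (T' ⊔ gspan Q gs) p.1 := by omega
    have hideal := relIdeal_eq_of_relFac_eq hI hI' hle hm0 hm hhead
    have ih := gpot_eq_imp hT hT' h gs hper' htail
    intro x hx
    obtain ⟨hxT', hx2⟩ := hx
    obtain ⟨t, ht, y, hy, rfl⟩ := Submodule.mem_sup.mp hx2
    simp only [gspan] at hy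
    obtain ⟨c, hc, w, hw, rfl⟩ := Submodule.mem_sup.mp hy
    obtain ⟨q, rfl⟩ := mem_cycSpan.mp hc
    have hc' : aeval Q q p.1 ∈ T' ⊔ gspan Q gs := by
      have e : aeval Q q p.1 = (t + (aeval Q q p.1 + w)) - t - w := by abel
      rw [e]
      exact Submodule.sub_mem _ (Submodule.sub_mem _ (Submodule.mem_sup_left hxT')
        (Submodule.mem_sup_left (h ht))) (Submodule.mem_sup_right hw)
    have hq : q ∈ relIdeal Q (T ⊔ gspan Q gs) p.1 := hideal ((mem_relIdeal_iff hI').mpr hc')
    have hc'' : aeval Q q p.1 ∈ T ⊔ gspan Q gs := (mem_relIdeal_iff hI).mp hq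
    apply ih
    refine ⟨hxT', ?_⟩
    exact Submodule.add_mem _ (Submodule.mem_sup_left ht)
      (Submodule.add_mem _ hc'' (Submodule.mem_sup_right hw))

lemma gpot_lt {Q : Module.End ℚ E} {T T' : Submodule ℚ E} (hT : InvSub Q T) (hT' : InvSub Q T')
    (h : T < T') (gs : List (E × ℕ)) (hper : Periodic Q gs) (hle : T' ≤ gspan Q gs) :
    gpot Q T gs < gpot Q T' gs := by
  have hmono := gpot_mono hT hT' h.le gs hper
  rcases Nat.lt_or_ge (gpot Q T gs) (gpot Q T' gs) with hlt | hge
  · exact hlt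
  · exfalso
    have himp := gpot_eq_imp hT hT' h.le gs hper (le_antisymm hmono hge)
    have : T' ≤ T := by
      intro x hx
      exact himp ⟨hx, Submodule.mem_sup_right (hle hx)⟩
    exact absurd (le_antisymm h.le this) (ne_of_lt h)

end Chain

end Vale.Agent.Lib.P344
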