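import Mathlib
import Vale.Agent.Lib.P344.Basic

/-!
Elimination of variables: counting the lines that are lost when a coordinate is set to zero.
-/

namespace Vale.Agent.Lib.P344

/-- The coordinate projection that keeps the coordinates in `T` and sets the others to `0`. -/
noncomputable def proj {n : ℕ} (T : Finset (Fin n)) : (Fin n → ℂ) →ₗ[ℂ] (Fin n → ℂ) where
  toFun v := fun k => if k ∈ T then v k else 0
  map_add' := by
    intro v w
    ext k
    by_cases hk : k ∈ T <;> simp [hk]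
  map_smul' := by
    intro c v
    ext k
    by_cases hk : k ∈ T <;> simp [hk]

lemma proj_apply {n : ℕ} (T : Finset (Fin n)) (v : Fin n → ℂ) (k : Fin n) :
    proj T v k = if k ∈ T then v k else 0 := rfl

lemma proj_apply_mem {n : ℕ} {T : Finset (Fin n)} (v : Fin n → ℂ) {k : Fin n} (hk : k ∈ T) :
    proj T v k = v k := by
  simp [proj_apply, hk]

lemma proj_apply_not_mem {n : ℕ} {T : Finset (Fin n)} (v : Fin n → ℂ) {k : Fin n} (hk : k ∉ T) :
    proj T v k = 0 := by
  simp [proj_apply, hk]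

lemma proj_proj {n : ℕ} {T T' : Finset (Fin n)} (h : T' ⊆ T) (v : Fin n → ℂ) :
    proj T' (proj T v) = proj T' v := by
  ext k
  by_cases hk : k ∈ T'
  · rw [proj_apply_mem _ hk, proj_apply_mem _ hk, proj_apply_mem _ (h hk)]
  · rw [proj_apply_not_mem _ hk, proj_apply_not_mem _ hk]

lemma proj_univ {n : ℕ} (v : Fin n → ℂ) : proj Finset.univ v = v := by
  ext k
  simp [proj_apply]

lemma proj_unitVec_mem {n : ℕ} {T : Finset (Fin n)} {k : Fin n} (hk : k ∈ T) :
    proj T (unitVec k) = unitVec k := by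
  ext k'
  by_cases hk' : k' ∈ T
  · rw [proj_apply_mem _ hk']
  · rw [proj_apply_not_mem _ hk']
    have : k' ≠ k := fun h => hk' (h ▸ hk)
    rw [unitVec_apply_ne this]

lemma proj_unitVec_not_mem {n : ℕ} {T : Finset (Fin n)} {k : Fin n} (hk : k ∉ T) :
    proj T (unitVec k) = 0 := by
  ext k'
  by_cases hk' : k' ∈ T
  · rw [proj_apply_mem _ hk']
    have : k' ≠ k := fun h => hk (h ▸ hk')
    rw [unitVec_apply_ne this]
    rfl
  · rw [proj_apply_not_mem _ hk']
    rfl

/-- The line of the projection of a vector. -/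
noncomputable def lineP {n : ℕ} (T : Finset (Fin n)) (v : Fin n → ℂ) :
    Submodule ℂ (Fin n → ℂ) := line (proj T v)

lemma lineP_eq_iff {n : ℕ} (T : Finset (Fin n)) (v w : Fin n → ℂ) :
    lineP T v = lineP T w ↔ Par (proj T v) (proj T w) := line_eq_iff _ _

lemma map_lineP {n : ℕ} {T T' : Finset (Fin n)} (h : T' ⊆ T) (v : Fin n → ℂ) :
    (lineP T v).map (proj T') = lineP T' v := by
  unfold lineP line
  rw [Submodule.map_span, Set.image_singleton, proj_proj h]

lemma lineP_of_lineP {n : ℕ} {T T' : Finset (Fin n)} (h : T' ⊆ T) {v w : Fin n → ℂ}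
    (hvw : lineP T v = lineP T w) : lineP T' v = lineP T' w := by
  rw [← map_lineP h v, ← map_lineP h w, hvw]

/-- The lines of the projected set `S` that are not lines of projected members of `O`. -/
noncomputable def NL {n : ℕ} (S O : Set (Fin n → ℂ)) (T : Finset (Fin n)) :
    Set (Submodule ℂ (Fin n → ℂ)) := (lineP T '' S) \ (lineP T '' O)

lemma NL_finite {n : ℕ} {S : Set (Fin n → ℂ)} (O : Set (Fin n → ℂ)) (hS : S.Finite)
    (T : Finset (Fin n)) : (NL S O T).Finite :=
  (hS.image _).subset Set.sdiff_subset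

lemma ncard_NL_le {n : ℕ} {S O : Set (Fin n → ℂ)} (hS : S.Finite) {T T' : Finset (Fin n)}
    (hTT : T' ⊆ T) (D : Set (Submodule ℂ (Fin n → ℂ))) (hD : D ⊆ NL S O T)
    (hcov : ∀ s ∈ S, lineP T s ∈ D → lineP T' s ∉ lineP T' '' O →
      ∃ s' ∈ S, lineP T s' ∉ D ∧ lineP T' s' = lineP T' s) :
    (NL S O T').ncard + D.ncard ≤ (NL S O T).ncard := by
  have hfin : (NL S O T).Finite := NL_finite O hS T
  have hsub : NL S O T' ⊆ (Submodule.map (proj T')) '' (NL S O T \ D) := by
    rintro m' ⟨⟨s, hs, rfl⟩, hm'⟩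
    have hnonO : ∀ s' ∈ S, lineP T' s' = lineP T' s → lineP T s' ∉ lineP T '' O := by
      rintro s' _ hs' ⟨r, hr, hrs⟩
      exact hm' ⟨r, hr, by rw [← hs']; exact lineP_of_lineP hTT hrs⟩
    by_cases hsD : lineP T s ∈ D
    · obtain ⟨s', hs', hs'D, hs'eq⟩ := hcov s hs hsD hm'
      exact ⟨lineP T s', ⟨⟨⟨s', hs', rfl⟩, hnonO s' hs' hs'eq⟩, hs'D⟩, by rw [map_lineP hTT, hs'eq]⟩
    · exact ⟨lineP T s, ⟨⟨⟨s, hs, rfl⟩, hnonO s hs rfl⟩, hsD⟩, map_lineP hTT s⟩
  have h1 : (NL S O T').ncard ≤ (NL S O T \ D).ncard :=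
    le_trans (Set.ncard_le_ncard hsub ((hfin.subset Set.sdiff_subset).image _))
      (Set.ncard_image_le (hfin.subset Set.sdiff_subset))
  have h2 := Set.ncard_sdiff_add_ncard_of_subset hD hfin
  omega

lemma cover2 {n : ℕ} {S O : Set (Fin n → ℂ)} (hS : S.Finite) {T T' : Finset (Fin n)}
    (hTT : T' ⊆ T) (d1 d2 : Fin n → ℂ) (h1 : d1 ∈ S) (h2 : d2 ∈ S)
    (hn1 : lineP T d1 ∉ lineP T '' O) (hn2 : lineP T d2 ∉ lineP T '' O)
    (h12 : lineP T d1 ≠ lineP T d2)
    (c1 : lineP T' d1 ∈ lineP T' '' O ∨ ∃ s' ∈ S, lineP T s' ≠ lineP T d1 ∧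
      lineP T s' ≠ lineP T d2 ∧ lineP T' s' = lineP T' d1)
    (c2 : lineP T' d2 ∈ lineP T' '' O ∨ ∃ s' ∈ S, lineP T s' ≠ lineP T d1 ∧
      lineP T s' ≠ lineP T d2 ∧ lineP T' s' = lineP T' d2) :
    (NL S O T').ncard + 2 ≤ (NL S O T).ncard := by
  have hD : ({lineP T d1, lineP T d2} : Set (Submodule ℂ (Fin n → ℂ))) ⊆ NL S O T := by
    rintro m (rfl | rfl)
    · exact ⟨⟨d1, h1, rfl⟩, hn1⟩
    · exact ⟨⟨d2, h2, rfl⟩, hn2⟩
  have := ncard_NL_le hS hTT _ hD (by
    intro s hs hsD hsO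
    have aux : ∀ d : Fin n → ℂ, lineP T s = lineP T d →
        (lineP T' d ∈ lineP T' '' O ∨ ∃ s' ∈ S, lineP T s' ≠ lineP T d1 ∧
          lineP T s' ≠ lineP T d2 ∧ lineP T' s' = lineP T' d) →
        ∃ s' ∈ S, lineP T s' ∉ ({lineP T d1, lineP T d2} : Set (Submodule ℂ (Fin n → ℂ))) ∧
          lineP T' s' = lineP T' s := by
      intro d hsd hc
      have hsd' : lineP T' s = lineP T' d := lineP_of_lineP hTT hsd
      rcases hc with hc | ⟨s', hs', hne1, hne2, heq⟩
      · exact absurd (hsd' ▸ hc) hsO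
      · refine ⟨s', hs', ?_, by rw [heq, hsd']⟩
        rintro (h | h)
        · exact hne1 h
        · exact hne2 h
    rcases hsD with h | h
    · exact aux d1 h c1
    · exact aux d2 h c2)
  rw [Set.ncard_pair h12] at this
  exact this

lemma cover3 {n : ℕ} {S O : Set (Fin n → ℂ)} (hS : S.Finite) {T T' : Finset (Fin n)}
    (hTT : T' ⊆ T) (d1 d2 d3 : Fin n → ℂ) (h1 : d1 ∈ S) (h2 : d2 ∈ S) (h3 : d3 ∈ S)
    (hn1 : lineP T d1 ∉ lineP T '' O) (hn2 : lineP T d2 ∉ lineP T '' O)
    (hn3 : lineP T d3 ∉ lineP T '' O)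
    (h12 : lineP T d1 ≠ lineP T d2) (h13 : lineP T d1 ≠ lineP T d3)
    (h23 : lineP T d2 ≠ lineP T d3)
    (c1 : lineP T' d1 ∈ lineP T' '' O ∨ ∃ s' ∈ S, lineP T s' ≠ lineP T d1 ∧
      lineP T s' ≠ lineP T d2 ∧ lineP T s' ≠ lineP T d3 ∧ lineP T' s' = lineP T' d1)
    (c2 : lineP T' d2 ∈ lineP T' '' O ∨ ∃ s' ∈ S, lineP T s' ≠ lineP T d1 ∧
      lineP T s' ≠ lineP T d2 ∧ lineP T s' ≠ lineP T d3 ∧ lineP T' s' = lineP T' d2)
    (c3 : lineP T' d3 ∈ lineP T' '' O ∨ ∃ s' ∈ S, lineP T s' ≠ lineP T d1 ∧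
      lineP T s' ≠ lineP T d2 ∧ lineP T s' ≠ lineP T d3 ∧ lineP T' s' = lineP T' d3) :
    (NL S O T').ncard + 3 ≤ (NL S O T).ncard := by
  have hD : ({lineP T d1, lineP T d2, lineP T d3} : Set (Submodule ℂ (Fin n → ℂ))) ⊆
      NL S O T := by
    rintro m (rfl | rfl | rfl)
    · exact ⟨⟨d1, h1, rfl⟩, hn1⟩
    · exact ⟨⟨d2, h2, rfl⟩, hn2⟩
    · exact ⟨⟨d3, h3, rfl⟩, hn3⟩
  have := ncard_NL_le hS hTT _ hD (by
    intro s hs hsD hsO
    have aux : ∀ d : Fin n → ℂ, lineP T s = lineP T d →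
        (lineP T' d ∈ lineP T' '' O ∨ ∃ s' ∈ S, lineP T s' ≠ lineP T d1 ∧
          lineP T s' ≠ lineP T d2 ∧ lineP T s' ≠ lineP T d3 ∧ lineP T' s' = lineP T' d) →
        ∃ s' ∈ S, lineP T s' ∉
            ({lineP T d1, lineP T d2, lineP T d3} : Set (Submodule ℂ (Fin n → ℂ))) ∧
          lineP T' s' = lineP T' s := by
      intro d hsd hc
      have hsd' : lineP T' s = lineP T' d := lineP_of_lineP hTT hsd
      rcases hc with hc | ⟨s', hs', hne1, hne2, hne3, heq⟩
      · exact absurd (hsd' ▸ hc) hsO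
      · refine ⟨s', hs', ?_, by rw [heq, hsd']⟩
        rintro (h | h | h)
        · exact hne1 h
        · exact hne2 h
        · exact hne3 h
    rcases hsD with h | h | h
    · exact aux d1 h c1
    · exact aux d2 h c2
    · exact aux d3 h c3)
  have h3 : ({lineP T d1, lineP T d2, lineP T d3} : Set (Submodule ℂ (Fin n → ℂ))).ncard = 3 :=
    Set.ncard_eq_three.mpr ⟨_, _, _, h12, h13, h23, rfl⟩
  rw [h3] at this
  exact this

/-- A vector with at most one nonzero coordinate. -/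
def Mono {n : ℕ} (v : Fin n → ℂ) : Prop := ∃ k, ∀ k', k' ≠ k → v k' = 0

lemma exists_first_gate {n : ℕ} {S O : Set (Fin n → ℂ)}
    (hgen : Generated (insert 0 (Set.range fun k : Fin n => unitVec k)) S)
    (hOS : O ⊆ S) (hOne : O.Nonempty) (hOnz : ∀ r ∈ O, ∀ k, r k ≠ 0)
    (T : Finset (Fin n)) (hT : 2 ≤ T.card) :
    ∃ i ∈ T, ∃ j ∈ T, i ≠ j ∧ ∃ g ∈ S, proj T g i ≠ 0 ∧ proj T g j ≠ 0 ∧
      ∀ k, k ≠ i → k ≠ j → proj T g k = 0 := by
  classical
  obtain ⟨i₀, hi₀, j₀, hj₀, hij₀⟩ : ∃ i₀ ∈ T, ∃ j₀ ∈ T, i₀ ≠ j₀ := Finset.one_lt_card.mp hT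
  by_contra hcon
  have hall : ∀ s ∈ S, Mono (proj T s) := by
    apply hgen (fun s => Mono (proj T s))
    · rintro v (rfl | ⟨k, rfl⟩)
      · exact ⟨i₀, fun k' _ => by simp⟩
      · by_cases hk : k ∈ T
        · rw [proj_unitVec_mem hk]
          exact ⟨k, fun k' hk' => unitVec_apply_ne hk'⟩
        · rw [proj_unitVec_not_mem hk]
          exact ⟨i₀, fun k' _ => rfl⟩
    · intro a ha b hb v hv ⟨ka, hka⟩ ⟨kb, hkb⟩ hspan
      rw [Submodule.mem_span_pair] at hspan
      obtain ⟨x, y, rfl⟩ := hspan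
      by_contra hmono
      apply hcon
      have hproj : ∀ k, proj T (x • a + y • b) k = x * proj T a k + y * proj T b k := by
        intro k
        simp [map_add, map_smul]
      have hne : ka ≠ kb := by
        rintro rfl
        apply hmono
        exact ⟨ka, fun k' hk' => by rw [hproj, hka k' hk', hkb k' hk']; ring⟩
      have hva : proj T (x • a + y • b) ka ≠ 0 := by
        intro h0
        apply hmono
        refine ⟨kb, fun k' hk' => ?_⟩
        by_cases hk'a : k' = ka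
        · rw [hk'a]
          exact h0
        · rw [hproj, hka k' hk'a, hkb k' hk']
          ring
      have hvb : proj T (x • a + y • b) kb ≠ 0 := by
        intro h0
        apply hmono
        refine ⟨ka, fun k' hk' => ?_⟩
        by_cases hk'b : k' = kb
        · rw [hk'b]
          exact h0
        · rw [hproj, hka k' hk', hkb k' hk'b]
          ring
      have hkaT : ka ∈ T := by
        by_contra h
        exact hva (proj_apply_not_mem _ h)
      have hkbT : kb ∈ T := by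
        by_contra h
        exact hvb (proj_apply_not_mem _ h)
      exact ⟨ka, hkaT, kb, hkbT, hne, x • a + y • b, hv, hva, hvb, fun k hk1 hk2 => by
        rw [hproj, hka k hk1, hkb k hk2]; ring⟩
  obtain ⟨r, hr⟩ := hOne
  obtain ⟨k, hk⟩ := hall r (hOS hr)
  by_cases hki : k = i₀
  · have := hk j₀ (fun h => hij₀ (by rw [← hki, h]))
    rw [proj_apply_mem _ hj₀] at this
    exact hOnz r hr j₀ this
  · have := hk i₀ (fun h => hki h.symm)
    rw [proj_apply_mem _ hi₀] at this
    exact hOnz r hr i₀ this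

/-- The property used in the structure lemma: `v` satisfies the linear relation
`β * v i = α * v j`, or is a multiple of the unit vector `i`, or of the unit vector `j`. -/
def QW {n : ℕ} (i j : Fin n) (α β : ℂ) (v : Fin n → ℂ) : Prop :=
  β * v i = α * v j ∨ (∃ c : ℂ, v = c • unitVec i) ∨ (∃ c : ℂ, v = c • unitVec j)

lemma QW_symm {n : ℕ} {i j : Fin n} {α β : ℂ} {v : Fin n → ℂ} (h : QW i j α β v) :
    QW j i β α v := by
  rcases h with h | h | h
  · exact Or.inl h.symm
  · exact Or.inr (Or.inr h)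
  · exact Or.inr (Or.inl h)

lemma QW_smul {n : ℕ} {i j : Fin n} {α β : ℂ} {v : Fin n → ℂ} (y : ℂ) (h : QW i j α β v) :
    QW i j α β (y • v) := by
  rcases h with h | ⟨c, h⟩ | ⟨c, h⟩
  · left
    simp only [Pi.smul_apply, smul_eq_mul]
    linear_combination y * h
  · right; left
    exact ⟨y * c, by rw [h, smul_smul]⟩
  · right; right
    exact ⟨y * c, by rw [h, smul_smul]⟩

/-- A second pair of lines that merge when the coordinate `i` is set to zero. -/
def Good {n : ℕ} (S : Set (Fin n → ℂ)) (T : Finset (Fin n)) (i j : Fin n) (g : Fin n → ℂ) :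
    Prop :=
  ∃ l ∈ S, ∃ b ∈ S, proj T l ≠ 0 ∧ ¬ Par (unitVec i) (proj T l) ∧
    ¬ Par (unitVec j) (proj T l) ∧ ¬ Par (proj T g) (proj T l) ∧ proj T b ≠ 0 ∧
    ¬ Par (unitVec i) (proj T b) ∧ ¬ Par (proj T l) (proj T b) ∧
    Par (proj (T.erase i) l) (proj (T.erase i) b)

lemma mixI {n : ℕ} {S : Set (Fin n → ℂ)} {T : Finset (Fin n)} {i j : Fin n}
    {g : Fin n → ℂ} {α β : ℂ} (hgi : proj T g i = α) (hgj : proj T g j = β)
    (hng : ¬ Good S T i j g)
    {a b v : Fin n → ℂ} (hb : b ∈ S) (hv : v ∈ S) (c x y : ℂ)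
    (ha' : proj T a = c • unitVec i) (hQb : QW i j α β (proj T b))
    (hvab : proj T v = x • proj T a + y • proj T b) : QW i j α β (proj T v) := by
  by_contra hQ
  have hW : ¬ (β * proj T v i = α * proj T v j) := fun h => hQ (Or.inl h)
  have hI : ∀ d : ℂ, proj T v ≠ d • unitVec i := fun d h => hQ (Or.inr (Or.inl ⟨d, h⟩))
  have hJ : ∀ d : ℂ, proj T v ≠ d • unitVec j := fun d h => hQ (Or.inr (Or.inr ⟨d, h⟩))
  have hv' : proj T v = (x * c) • unitVec i + y • proj T b := by
    rw [hvab, ha', smul_smul]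
  have hy : y ≠ 0 := by
    rintro rfl
    exact hI (x * c) (by rw [hv']; simp)
  have hb0 : proj T b ≠ 0 := by
    intro h0
    exact hI (x * c) (by rw [hv', h0]; simp)
  have hbi : ¬ Par (unitVec i) (proj T b) := by
    rintro ⟨d, _, hd⟩
    exact hI (x * c + y * d) (by rw [hv', hd, smul_smul, add_smul])
  have hvb : ¬ Par (proj T v) (proj T b) := by
    rintro ⟨d, _, hd⟩
    have h1 : (1 - y * d) • proj T v = (x * c) • unitVec i := by
      have h2 : proj T v = (x * c) • unitVec i + (y * d) • proj T v := by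
        conv_lhs => rw [hv', hd, smul_smul]
      rw [sub_smul, one_smul, sub_eq_iff_eq_add]
      exact h2
    by_cases h2 : 1 - y * d = 0
    · rw [h2, zero_smul] at h1
      have hxc : x * c = 0 := by
        have h3 := congrFun h1 i
        simp only [Pi.zero_apply, Pi.smul_apply, smul_eq_mul, unitVec_apply_self, mul_one] at h3
        exact h3.symm
      apply hQ
      rw [hv', hxc, zero_smul, zero_add]
      exact QW_smul y hQb
    · apply hI ((1 - y * d)⁻¹ * (x * c))
      rw [← smul_smul, ← h1, smul_smul, inv_mul_cancel₀ h2, one_smul]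
  have hvi : ¬ Par (unitVec i) (proj T v) := by
    rintro ⟨d, _, hd⟩
    exact hI d hd
  have hvj : ¬ Par (unitVec j) (proj T v) := by
    rintro ⟨d, _, hd⟩
    exact hJ d hd
  have hvg : ¬ Par (proj T g) (proj T v) := by
    rintro ⟨d, _, hd⟩
    apply hW
    rw [hd]
    simp only [Pi.smul_apply, smul_eq_mul, hgi, hgj]
    ring
  have hv0 : proj T v ≠ 0 := by
    intro h0
    apply hW
    rw [h0]
    simp
  have hpar : Par (proj (T.erase i) v) (proj (T.erase i) b) := by
    apply Par.symm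
    refine ⟨y, hy, ?_⟩
    have hsub : T.erase i ⊆ T := Finset.erase_subset _ _
    rw [← proj_proj hsub v, hv', map_add, map_smul, map_smul, proj_proj hsub,
      proj_unitVec_not_mem (Finset.notMem_erase i T), smul_zero, zero_add]
  exact hng ⟨v, hv, b, hb, hv0, hvi, hvj, hvg, hb0, hbi, hvb, hpar⟩

lemma structure_lemma {n : ℕ} {S : Set (Fin n → ℂ)}
    (hgen : Generated (insert 0 (Set.range fun k : Fin n => unitVec k)) S)
    {T : Finset (Fin n)} {i j : Fin n}
    {g : Fin n → ℂ} {α β : ℂ} (hgi : proj T g i = α) (hgj : proj T g j = β)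
    (hng : ¬ Good S T i j g) (hng' : ¬ Good S T j i g) :
    ∀ s ∈ S, QW i j α β (proj T s) := by
  apply hgen (fun s => QW i j α β (proj T s))
  · rintro v (rfl | ⟨k, rfl⟩)
    · left
      simp
    · by_cases hk : k ∈ T
      · rw [proj_unitVec_mem hk]
        by_cases hki : k = i
        · right; left
          exact ⟨1, by rw [hki, one_smul]⟩
        · by_cases hkj : k = j
          · right; right
            exact ⟨1, by rw [hkj, one_smul]⟩
          · left
            rw [unitVec_apply_ne (Ne.symm hki), unitVec_apply_ne (Ne.symm hkj)]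
            simp
      · rw [proj_unitVec_not_mem hk]
        left
        simp
  · intro a ha b hb v hv hQa hQb hspan
    rw [Submodule.mem_span_pair] at hspan
    obtain ⟨x, y, rfl⟩ := hspan
    have hvab : proj T (x • a + y • b) = x • proj T a + y • proj T b := by
      simp [map_add, map_smul]
    have hvba : proj T (x • a + y • b) = y • proj T b + x • proj T a := by
      rw [hvab, add_comm]
    rcases hQa with hWa | ⟨c, hIa⟩ | ⟨c, hJa⟩
    · rcases hQb with hWb | ⟨c, hIb⟩ | ⟨c, hJb⟩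
      · left
        rw [hvab]
        simp only [Pi.add_apply, Pi.smul_apply, smul_eq_mul]
        linear_combination x * hWa + y * hWb
      · exact mixI hgi hgj hng ha hv c y x hIb (Or.inl hWa) hvba
      · exact QW_symm (mixI hgj hgi hng' ha hv c y x hJb (QW_symm (Or.inl hWa)) hvba)
    · exact mixI hgi hgj hng hb hv c x y hIa hQb hvab
    · exact QW_symm (mixI hgj hgi hng' hb hv c x y hJa (QW_symm hQb) hvab)

lemma good_or_good {n : ℕ} {S O : Set (Fin n → ℂ)}
    (hgen : Generated (insert 0 (Set.range fun k : Fin n => unitVec k)) S)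
    (hOS : O ⊆ S) (hOnz : ∀ r ∈ O, ∀ k, r k ≠ 0)
    (hOind : ∀ i j : Fin n, i ≠ j → ∀ α β : ℂ, α ≠ 0 → ¬ (∀ r ∈ O, β * r i = α * r j))
    {T : Finset (Fin n)} {i j : Fin n} (hij : i ≠ j) (hiT : i ∈ T) (hjT : j ∈ T)
    {g : Fin n → ℂ} (hgi : proj T g i ≠ 0) :
    Good S T i j g ∨ Good S T j i g := by
  by_contra hcon
  obtain ⟨hng, hng'⟩ := not_or.mp hcon
  have hstr := structure_lemma hgen (rfl : proj T g i = proj T g i)
    (rfl : proj T g j = proj T g j) hng hng'
  apply hOind i j hij (proj T g i) (proj T g j) hgi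
  intro r hr
  rcases hstr r (hOS hr) with h | ⟨c, h⟩ | ⟨c, h⟩
  · rwa [proj_apply_mem r hiT, proj_apply_mem r hjT] at h
  · exfalso
    have h1 := congrFun h j
    rw [proj_apply_mem _ hjT] at h1
    simp only [Pi.smul_apply, smul_eq_mul, unitVec_apply_ne hij.symm, mul_zero] at h1
    exact hOnz r hr j h1
  · exfalso
    have h1 := congrFun h i
    rw [proj_apply_mem _ hiT] at h1
    simp only [Pi.smul_apply, smul_eq_mul, unitVec_apply_ne hij, mul_zero] at h1
    exact hOnz r hr i h1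

end Vale.Agent.Lib.P344
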