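import Mathlib
import Vale.Agent.Lib.P344.Elim

/-!
The elimination step: setting a suitable coordinate to zero loses three lines that are not
output lines (or two, when two output lines merge).
-/

namespace Vale.Agent.Lib.P344

lemma not_mem_lineO {n : ℕ} {O : Set (Fin n → ℂ)} (hOnz : ∀ r ∈ O, ∀ k, r k ≠ 0)
    {T : Finset (Fin n)} {s : Fin n → ℂ} {k : Fin n} (hk : k ∈ T) (hsk : proj T s k = 0) :
    lineP T s ∉ lineP T '' O := by
  rintro ⟨r, hr, hrs⟩
  have hpar := (lineP_eq_iff T r s).mp hrs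
  have h1 := (hpar.apply_eq_zero_iff k).mpr hsk
  rw [proj_apply_mem _ hk] at h1
  exact hOnz r hr k h1

lemma lineP_ne_of_coord {n : ℕ} {T : Finset (Fin n)} {s s' : Fin n → ℂ} {k : Fin n}
    (h1 : proj T s k = 0) (h2 : proj T s' k ≠ 0) : lineP T s ≠ lineP T s' := by
  intro h
  have hpar := (lineP_eq_iff T s s').mp h
  exact h2 ((hpar.apply_eq_zero_iff k).mp h1)

lemma step_good {n : ℕ} {S O : Set (Fin n → ℂ)} (hS : S.Finite) (h0 : (0 : Fin n → ℂ) ∈ S)
    (hunit : ∀ k, unitVec k ∈ S) (hOnz : ∀ r ∈ O, ∀ k, r k ≠ 0)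
    {T : Finset (Fin n)} (hT : 3 ≤ T.card) {i j : Fin n} (hij : i ≠ j) (hiT : i ∈ T)
    (hjT : j ∈ T) {g : Fin n → ℂ} (hgS : g ∈ S) (hgi : proj T g i ≠ 0) (hgj : proj T g j ≠ 0)
    (hgk : ∀ k, k ≠ i → k ≠ j → proj T g k = 0) (hgood : Good S T i j g) :
    (NL S O (T.erase i)).ncard + 3 ≤ (NL S O T).ncard ∨
    ((NL S O (T.erase i)).ncard + 2 ≤ (NL S O T).ncard ∧
      ∃ r ∈ O, ∃ r' ∈ O, ¬ Par (proj T r) (proj T r') ∧
        Par (proj (T.erase i) r) (proj (T.erase i) r')) := by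
  classical
  have hTT : T.erase i ⊆ T := Finset.erase_subset _ _
  have hjT' : j ∈ T.erase i := Finset.mem_erase.mpr ⟨hij.symm, hjT⟩
  have hiT' : i ∉ T.erase i := Finset.notMem_erase i T
  obtain ⟨k₃, hk₃T, hk₃i, hk₃j⟩ : ∃ k₃ ∈ T, k₃ ≠ i ∧ k₃ ≠ j := by
    by_contra hcon
    have hsub : T ⊆ {i, j} := by
      intro k hk
      by_cases hki : k = i
      · simp [hki]
      · by_cases hkj : k = j
        · simp [hkj]
        · exact absurd ⟨k, hk, hki, hkj⟩ hcon
    have h1 := Finset.card_le_card hsub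
    have h2 : ({i, j} : Finset (Fin n)).card ≤ 2 := Finset.card_le_two
    omega
  have hk₃T' : k₃ ∈ T.erase i := Finset.mem_erase.mpr ⟨hk₃i, hk₃T⟩
  -- coordinates of the special vectors
  have hpi : proj T (unitVec i) = unitVec i := proj_unitVec_mem hiT
  have hpj : proj T (unitVec j) = unitVec j := proj_unitVec_mem hjT
  have hpj' : proj (T.erase i) (unitVec j) = unitVec j := proj_unitVec_mem hjT'
  have hpi' : proj (T.erase i) (unitVec i) = 0 := proj_unitVec_not_mem hiT'
  have hpg' : proj (T.erase i) g = (proj T g j) • unitVec j := by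
    rw [← proj_proj hTT g]
    ext k
    by_cases hkj : k = j
    · rw [hkj, proj_apply_mem _ hjT']
      simp [unitVec_apply_self]
    · simp only [Pi.smul_apply, smul_eq_mul, unitVec_apply_ne hkj, mul_zero]
      by_cases hki : k = i
      · rw [hki, proj_apply_not_mem _ hiT']
      · by_cases hkT : k ∈ T.erase i
        · rw [proj_apply_mem _ hkT]
          exact hgk k hki hkj
        · exact proj_apply_not_mem _ hkT
  -- lines at level T that are not output lines
  have hnO_i : lineP T (unitVec i) ∉ lineP T '' O :=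
    not_mem_lineO hOnz hjT (by rw [hpi]; exact unitVec_apply_ne hij.symm)
  have hnO_g : lineP T g ∉ lineP T '' O := not_mem_lineO hOnz hk₃T (hgk k₃ hk₃i hk₃j)
  have hnO'_j : lineP (T.erase i) (unitVec j) ∉ lineP (T.erase i) '' O :=
    not_mem_lineO hOnz hk₃T' (by rw [hpj']; exact unitVec_apply_ne hk₃j)
  -- distinctness at level T
  have hL_i_g : lineP T (unitVec i) ≠ lineP T g :=
    lineP_ne_of_coord (by rw [hpi]; exact unitVec_apply_ne hij.symm) hgj
  have hL_0_i : lineP T 0 ≠ lineP T (unitVec i) :=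
    lineP_ne_of_coord (k := i) (by simp) (by rw [hpi, unitVec_apply_self]; exact one_ne_zero)
  have hL_0_g : lineP T 0 ≠ lineP T g := lineP_ne_of_coord (k := i) (by simp) hgi
  have hL_j_i : lineP T (unitVec j) ≠ lineP T (unitVec i) :=
    lineP_ne_of_coord (k := i) (by rw [hpj]; exact unitVec_apply_ne hij)
      (by rw [hpi, unitVec_apply_self]; exact one_ne_zero)
  have hL_j_g : lineP T (unitVec j) ≠ lineP T g :=
    lineP_ne_of_coord (k := i) (by rw [hpj]; exact unitVec_apply_ne hij) hgi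
  -- level T'
  have hL'_i_0 : lineP (T.erase i) (unitVec i) = lineP (T.erase i) 0 := by
    unfold lineP
    rw [hpi', map_zero]
  have hL'_g_j : lineP (T.erase i) g = lineP (T.erase i) (unitVec j) := by
    rw [eq_comm, lineP_eq_iff, hpj', hpg']
    exact Par.smul _ hgj
  obtain ⟨l, hl, b, hb, hl0, hli, hlj, hlg, hb0, hbi, hbl, hpar⟩ := hgood
  have hL_i_l : lineP T (unitVec i) ≠ lineP T l := by
    rw [Ne, lineP_eq_iff, hpi]
    exact hli
  have hL_j_l : lineP T (unitVec j) ≠ lineP T l := by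
    rw [Ne, lineP_eq_iff, hpj]
    exact hlj
  have hL_g_l : lineP T g ≠ lineP T l := by
    rw [Ne, lineP_eq_iff]
    exact hlg
  have hL_0_l : lineP T 0 ≠ lineP T l := by
    rw [Ne, lineP_eq_iff, map_zero]
    intro h
    exact hl0 (h.eq_zero_iff.mp rfl)
  have hL_i_b : lineP T (unitVec i) ≠ lineP T b := by
    rw [Ne, lineP_eq_iff, hpi]
    exact hbi
  have hL_0_b : lineP T 0 ≠ lineP T b := by
    rw [Ne, lineP_eq_iff, map_zero]
    intro h
    exact hb0 (h.eq_zero_iff.mp rfl)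
  have hL_l_b : lineP T l ≠ lineP T b := by
    rw [Ne, lineP_eq_iff]
    exact hbl
  have hL'_l_b : lineP (T.erase i) l = lineP (T.erase i) b := (lineP_eq_iff _ _ _).mpr hpar
  by_cases hmerge : ∃ r ∈ O, ∃ r' ∈ O, ¬ Par (proj T r) (proj T r') ∧
      Par (proj (T.erase i) r) (proj (T.erase i) r')
  · right
    exact ⟨cover2 hS hTT (unitVec i) g (hunit i) hgS hnO_i hnO_g hL_i_g
      (Or.inr ⟨0, h0, hL_0_i, hL_0_g, hL'_i_0.symm⟩)
      (Or.inr ⟨unitVec j, hunit j, hL_j_i, hL_j_g, hL'_g_j.symm⟩), hmerge⟩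
  · left
    have hnm : ∀ r ∈ O, ∀ r' ∈ O, Par (proj (T.erase i) r) (proj (T.erase i) r') →
        Par (proj T r) (proj T r') := by
      intro r hr r' hr' hp
      by_contra hnp
      exact hmerge ⟨r, hr, r', hr', hnp, hp⟩
    by_cases hlO : lineP T l ∈ lineP T '' O
    · obtain ⟨r, hr, hrl⟩ := hlO
      have hrl' : lineP (T.erase i) r = lineP (T.erase i) l := lineP_of_lineP hTT hrl
      by_cases hbO : lineP T b ∈ lineP T '' O
      · exfalso
        obtain ⟨r', hr', hrb⟩ := hbO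
        have hrb' : lineP (T.erase i) r' = lineP (T.erase i) b := lineP_of_lineP hTT hrb
        have hrr : lineP (T.erase i) r = lineP (T.erase i) r' := by
          rw [hrl', hL'_l_b, hrb']
        have hp := hnm r hr r' hr' ((lineP_eq_iff _ _ _).mp hrr)
        apply hL_l_b
        rw [← hrl, ← hrb]
        exact (lineP_eq_iff _ _ _).mpr hp
      · have hb'O : lineP (T.erase i) b ∈ lineP (T.erase i) '' O :=
          ⟨r, hr, by rw [hrl', hL'_l_b]⟩
        have hL_g_b : lineP T g ≠ lineP T b := by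
          intro h
          apply hnO'_j
          rw [← hL'_g_j, lineP_of_lineP hTT h]
          exact hb'O
        have hL_j_b : lineP T (unitVec j) ≠ lineP T b := by
          intro h
          apply hnO'_j
          rw [lineP_of_lineP hTT h]
          exact hb'O
        exact cover3 hS hTT (unitVec i) g b (hunit i) hgS hb hnO_i hnO_g hbO hL_i_g hL_i_b
          hL_g_b (Or.inr ⟨0, h0, hL_0_i, hL_0_g, hL_0_b, hL'_i_0.symm⟩)
          (Or.inr ⟨unitVec j, hunit j, hL_j_i, hL_j_g, hL_j_b, hL'_g_j.symm⟩)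
          (Or.inl hb'O)
    · refine cover3 hS hTT (unitVec i) g l (hunit i) hgS hl hnO_i hnO_g hlO hL_i_g hL_i_l
        hL_g_l (Or.inr ⟨0, h0, hL_0_i, hL_0_g, hL_0_l, hL'_i_0.symm⟩)
        (Or.inr ⟨unitVec j, hunit j, hL_j_i, hL_j_g, hL_j_l, hL'_g_j.symm⟩) ?_
      by_cases hbg : lineP T b = lineP T g
      · right
        refine ⟨unitVec j, hunit j, hL_j_i, hL_j_g, hL_j_l, ?_⟩
        rw [← hL'_g_j, ← lineP_of_lineP hTT hbg, hL'_l_b]
      · right
        exact ⟨b, hb, fun h => hL_i_b h.symm, hbg, fun h => hL_l_b h.symm, hL'_l_b.symm⟩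

/-- One elimination step: some coordinate of `T` can be removed at the cost of three lines
that are not output lines, or of two such lines when two output lines merge. -/
lemma elim_step {n : ℕ} {S O : Set (Fin n → ℂ)} (hS : S.Finite)
    (hgen : Generated (insert 0 (Set.range fun k : Fin n => unitVec k)) S)
    (h0 : (0 : Fin n → ℂ) ∈ S) (hunit : ∀ k, unitVec k ∈ S)
    (hOS : O ⊆ S) (hOne : O.Nonempty) (hOnz : ∀ r ∈ O, ∀ k, r k ≠ 0)
    (hOind : ∀ i j : Fin n, i ≠ j → ∀ α β : ℂ, α ≠ 0 → ¬ (∀ r ∈ O, β * r i = α * r j))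
    (T : Finset (Fin n)) (hT : 3 ≤ T.card) :
    ∃ i ∈ T, (NL S O (T.erase i)).ncard + 3 ≤ (NL S O T).ncard ∨
      ((NL S O (T.erase i)).ncard + 2 ≤ (NL S O T).ncard ∧
        ∃ r ∈ O, ∃ r' ∈ O, ¬ Par (proj T r) (proj T r') ∧
          Par (proj (T.erase i) r) (proj (T.erase i) r')) := by
  obtain ⟨i, hiT, j, hjT, hij, g, hgS, hgi, hgj, hgk⟩ :=
    exists_first_gate hgen hOS hOne hOnz T (by omega)
  rcases good_or_good hgen hOS hOnz hOind hij hiT hjT hgi with hgood | hgood
  · exact ⟨i, hiT, step_good hS h0 hunit hOnz hT hij hiT hjT hgS hgi hgj hgk hgood⟩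
  · exact ⟨j, hjT, step_good hS h0 hunit hOnz hT hij.symm hjT hiT hgS hgj hgi
      (fun k h1 h2 => hgk k h2 h1) hgood⟩

end Vale.Agent.Lib.P344
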