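import Mathlib
import Vale.Agent.Lib.P344.Step

/-!
The induction over the set of live coordinates and the final lower bounds.
-/

namespace Vale.Agent.Lib.P344

open ArithmeticFunction

/-- The residues `m` modulo `n` with `m * (k - k') = 0` for all `k, k'` in `T`: the differences
of the indices of two rows of the Fourier matrix that are proportional on `T`. -/
def Msub (n : ℕ) (T : Finset (Fin n)) : AddSubgroup (ZMod n) where
  carrier := {m | ∀ k ∈ T, ∀ k' ∈ T, m * (((k : ℕ) : ZMod n) - ((k' : ℕ) : ZMod n)) = 0}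
  add_mem' := by
    intro a b ha hb k hk k' hk'
    rw [add_mul, ha k hk k' hk', hb k hk k' hk', add_zero]
  zero_mem' := by
    intro k _ k' _
    rw [zero_mul]
  neg_mem' := by
    intro a ha k hk k' hk'
    rw [neg_mul, ha k hk k' hk', neg_zero]

lemma Msub_mono {n : ℕ} {T T' : Finset (Fin n)} (h : T' ⊆ T) : Msub n T ≤ Msub n T' :=
  fun _ hm k hk k' hk' => hm k (h hk) k' (h hk')

lemma zeta_pow_eq_iff {n : ℕ} (hn : n ≠ 0) (x y : ℕ) :
    zeta n ^ x = zeta n ^ y ↔ ((x : ZMod n) = (y : ZMod n)) := by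
  have hfo : IsOfFinOrder (zeta n) :=
    isOfFinOrder_iff_pow_eq_one.mpr ⟨n, Nat.pos_of_ne_zero hn, (zeta_prim n hn).pow_eq_one⟩
  rw [hfo.pow_eq_pow_iff_modEq, ← (zeta_prim n hn).eq_orderOf, ZMod.natCast_eq_natCast_iff]

lemma par_rows_imp {n : ℕ} (hn : n ≠ 0) {T : Finset (Fin n)} {a a' : Fin n}
    (h : Par (proj T (dftRow n a)) (proj T (dftRow n a'))) :
    (((a : ℕ) : ZMod n) - ((a' : ℕ) : ZMod n)) ∈ Msub n T := by
  obtain ⟨c, hc, hca⟩ := h
  intro k hk k' hk'
  have h1 := congrFun hca k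
  have h2 := congrFun hca k'
  simp only [Pi.smul_apply, smul_eq_mul] at h1 h2
  rw [proj_apply_mem _ hk, proj_apply_mem _ hk, dftRow_apply, dftRow_apply] at h1
  rw [proj_apply_mem _ hk', proj_apply_mem _ hk', dftRow_apply, dftRow_apply] at h2
  have h3 : zeta n ^ ((a' : ℕ) * (k : ℕ) + (a : ℕ) * (k' : ℕ)) =
      zeta n ^ ((a' : ℕ) * (k' : ℕ) + (a : ℕ) * (k : ℕ)) := by
    rw [pow_add, pow_add, h1, h2]
    ring
  rw [zeta_pow_eq_iff hn] at h3
  push_cast at h3
  linear_combination (-1 : ZMod n) * h3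

lemma par_rows_of_mem {n : ℕ} (hn : n ≠ 0) {T : Finset (Fin n)} (hT : T.Nonempty)
    {a a' : Fin n} (h : (((a : ℕ) : ZMod n) - ((a' : ℕ) : ZMod n)) ∈ Msub n T) :
    Par (proj T (dftRow n a)) (proj T (dftRow n a')) := by
  obtain ⟨k₀, hk₀⟩ := hT
  have hne : zeta n ^ ((a : ℕ) * (k₀ : ℕ)) ≠ 0 := pow_ne_zero _ (zeta_ne_zero n)
  refine ⟨zeta n ^ ((a' : ℕ) * (k₀ : ℕ)) * (zeta n ^ ((a : ℕ) * (k₀ : ℕ)))⁻¹,
    mul_ne_zero (pow_ne_zero _ (zeta_ne_zero n)) (inv_ne_zero hne), ?_⟩
  ext k
  simp only [Pi.smul_apply, smul_eq_mul]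
  by_cases hk : k ∈ T
  · rw [proj_apply_mem _ hk, proj_apply_mem _ hk, dftRow_apply, dftRow_apply]
    have h3 : zeta n ^ ((a' : ℕ) * (k : ℕ) + (a : ℕ) * (k₀ : ℕ)) =
        zeta n ^ ((a' : ℕ) * (k₀ : ℕ) + (a : ℕ) * (k : ℕ)) := by
      rw [zeta_pow_eq_iff hn]
      push_cast
      have h4 := h k hk k₀ hk₀
      linear_combination (-1 : ZMod n) * h4
    rw [pow_add, pow_add] at h3
    rw [mul_assoc, mul_comm (zeta n ^ ((a : ℕ) * (k₀ : ℕ)))⁻¹, ← mul_assoc, ← h3, mul_assoc,
      mul_inv_cancel₀ hne, mul_one]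
  · rw [proj_apply_not_mem _ hk, proj_apply_not_mem _ hk, mul_zero]

lemma omega_le_of_le {n : ℕ} [NeZero n] {H K : AddSubgroup (ZMod n)} (h : H ≤ K) :
    cardFactors (Nat.card H) ≤ cardFactors (Nat.card K) := by
  obtain ⟨q, hq⟩ := AddSubgroup.card_dvd_of_le h
  have hK : Nat.card K ≠ 0 := Nat.card_pos.ne'
  have hH : Nat.card H ≠ 0 := Nat.card_pos.ne'
  have hq0 : q ≠ 0 := by
    rintro rfl
    rw [mul_zero] at hq
    exact hK hq
  rw [hq, cardFactors_mul hH hq0]
  omega

lemma omega_lt_of_lt {n : ℕ} [NeZero n] {H K : AddSubgroup (ZMod n)} (h : H < K) :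
    cardFactors (Nat.card H) + 1 ≤ cardFactors (Nat.card K) := by
  obtain ⟨q, hq⟩ := AddSubgroup.card_dvd_of_le h.le
  have hK : Nat.card K ≠ 0 := Nat.card_pos.ne'
  have hH : Nat.card H ≠ 0 := Nat.card_pos.ne'
  have hlt : Nat.card H < Nat.card K :=
    Set.Finite.card_lt_card (Set.toFinite (K : Set (ZMod n))) (SetLike.coe_ssubset_coe.mpr h)
  have hq1 : 1 < q := by
    by_contra hq1
    have hq2 : q = 0 ∨ q = 1 := by omega
    rcases hq2 with rfl | rfl
    · rw [mul_zero] at hq
      exact hK hq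
    · rw [mul_one] at hq
      omega
  rw [hq, cardFactors_mul hH (by omega)]
  have := cardFactors_pos_iff_one_lt.mpr hq1
  omega

theorem elim_main {n : ℕ} (hn : 2 ≤ n) {S : Set (Fin n → ℂ)} (hS : S.Finite)
    (hgen : Generated (insert 0 (Set.range fun k : Fin n => unitVec k)) S)
    (h0 : (0 : Fin n → ℂ) ∈ S) (hunit : ∀ k, unitVec k ∈ S) (hrows : ∀ j, dftRow n j ∈ S) :
    ∀ m, 2 ≤ m → ∀ T : Finset (Fin n), T.card = m →
      3 * m + cardFactors (Nat.card (Msub n T)) ≤ (NL S (Set.range (dftRow n)) T).ncard + cardFactors n + 2 := by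
  have hn0 : n ≠ 0 := by omega
  have : NeZero n := ⟨hn0⟩
  have hOS : Set.range (dftRow n) ⊆ S := by
    rintro _ ⟨j, rfl⟩
    exact hrows j
  have hOne : (Set.range (dftRow n)).Nonempty := ⟨_, ⟨⟨0, by omega⟩, rfl⟩⟩
  have hOnz : ∀ r ∈ Set.range (dftRow n), ∀ k, r k ≠ 0 := by
    rintro _ ⟨j, rfl⟩ k
    exact dftRow_ne_zero n j k
  have hOind : ∀ i j : Fin n, i ≠ j → ∀ α β : ℂ, α ≠ 0 →
      ¬ (∀ r ∈ Set.range (dftRow n), β * r i = α * r j) := by
    intro i j hij α β hα hall
    have e0 := hall (dftRow n ⟨0, by omega⟩) ⟨_, rfl⟩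
    have e1 := hall (dftRow n ⟨1, hn⟩) ⟨_, rfl⟩
    simp only [dftRow_apply, zero_mul, pow_zero, mul_one, one_mul] at e0 e1
    rw [e0] at e1
    have e2 := mul_left_cancel₀ hα e1
    exact hij (Fin.ext ((zeta_prim n hn0).pow_inj i.2 j.2 e2))
  intro m hm
  induction m, hm using Nat.le_induction with
  | base =>
    intro T hT
    obtain ⟨i, j, hij, rfl⟩ := Finset.card_eq_two.mp hT
    have hiT : i ∈ ({i, j} : Finset (Fin n)) := by simp
    have hjT : j ∈ ({i, j} : Finset (Fin n)) := by simp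
    have hpi : proj {i, j} (unitVec i) = unitVec i := proj_unitVec_mem hiT
    have hpj : proj {i, j} (unitVec j) = unitVec j := proj_unitVec_mem hjT
    have h3 : 3 ≤ (NL S (Set.range (dftRow n)) {i, j}).ncard := by
      have hsub : ({lineP {i, j} 0, lineP {i, j} (unitVec i), lineP {i, j} (unitVec j)} :
          Set (Submodule ℂ (Fin n → ℂ))) ⊆ NL S (Set.range (dftRow n)) {i, j} := by
        rintro l (rfl | rfl | rfl)
        · exact ⟨⟨0, h0, rfl⟩, not_mem_lineO hOnz hiT (by simp)⟩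
        · exact ⟨⟨unitVec i, hunit i, rfl⟩,
            not_mem_lineO hOnz hjT (by rw [hpi]; exact unitVec_apply_ne hij.symm)⟩
        · exact ⟨⟨unitVec j, hunit j, rfl⟩,
            not_mem_lineO hOnz hiT (by rw [hpj]; exact unitVec_apply_ne hij)⟩
      have hcard : ({lineP {i, j} 0, lineP {i, j} (unitVec i), lineP {i, j} (unitVec j)} :
          Set (Submodule ℂ (Fin n → ℂ))).ncard = 3 := by
        refine Set.ncard_eq_three.mpr ⟨_, _, _, ?_, ?_, ?_, rfl⟩
        · exact lineP_ne_of_coord (k := i) (by simp)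
            (by rw [hpi, unitVec_apply_self]; exact one_ne_zero)
        · exact lineP_ne_of_coord (k := j) (by simp)
            (by rw [hpj, unitVec_apply_self]; exact one_ne_zero)
        · exact lineP_ne_of_coord (k := j) (by rw [hpi]; exact unitVec_apply_ne hij.symm)
            (by rw [hpj, unitVec_apply_self]; exact one_ne_zero)
      rw [← hcard]
      exact Set.ncard_le_ncard hsub (NL_finite _ hS _)
    have hM : cardFactors (Nat.card (Msub n {i, j})) + 1 ≤ cardFactors n := by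
      have hne : Msub n {i, j} ≠ ⊤ := by
        intro htop
        have h1 : (1 : ZMod n) ∈ Msub n {i, j} := by
          rw [htop]
          exact AddSubgroup.mem_top _
        have h2 := h1 i hiT j hjT
        rw [one_mul, sub_eq_zero, ZMod.natCast_eq_natCast_iff', Nat.mod_eq_of_lt i.2,
          Nat.mod_eq_of_lt j.2] at h2
        exact hij (Fin.ext h2)
      have h4 := omega_lt_of_lt (lt_top_iff_ne_top.mpr hne)
      rw [AddSubgroup.card_top, Nat.card_zmod] at h4
      exact h4
    omega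
  | succ m hm ih =>
    intro T hT
    obtain ⟨i, hiT, hstep⟩ := elim_step hS hgen h0 hunit hOS hOne hOnz hOind T (by omega)
    have hcard : (T.erase i).card = m := by
      rw [Finset.card_erase_of_mem hiT, hT]
      rfl
    have IH := ih (T.erase i) hcard
    have hmono := Msub_mono (n := n) (Finset.erase_subset i T)
    rcases hstep with h3 | ⟨h2, r, ⟨a, rfl⟩, r', ⟨a', rfl⟩, hnp, hp⟩
    · have := omega_le_of_le hmono
      omega
    · have hlt : Msub n T < Msub n (T.erase i) := by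
        refine lt_of_le_of_ne hmono ?_
        intro heq
        apply hnp
        apply par_rows_of_mem hn0 ⟨i, hiT⟩
        rw [heq]
        exact par_rows_imp hn0 hp
      have := omega_lt_of_lt hlt
      omega

/-- At least `3 n - 3 - Omega(n)` additions and subtractions are needed. -/
theorem addsub_bound {n A M : ℕ} (hn : 2 ≤ n) {X : Set (Fin n → ℂ)} (h : Reach n A M X)
    (hrows : ∀ j, dftRow n j ∈ X) : 3 * n ≤ A + cardFactors n + 3 := by
  have hfin := h.finite
  have hmain := elim_main hn hfin h.generated h.zero_mem h.unit_mem hrows n hn Finset.univ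
    (by simp)
  have hbot : Msub n Finset.univ = ⊥ := by
    rw [eq_bot_iff]
    intro m hm
    have h1 := hm ⟨1, hn⟩ (Finset.mem_univ _) ⟨0, by omega⟩ (Finset.mem_univ _)
    simpa using h1
  rw [hbot, AddSubgroup.card_bot, cardFactors_one] at hmain
  have hNL : NL X (Set.range (dftRow n)) Finset.univ =
      (line '' X) \ (line '' Set.range (dftRow n)) := by
    unfold NL
    have hl : lineP (Finset.univ : Finset (Fin n)) = line := by
      funext v
      unfold lineP
      rw [proj_univ]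
    rw [hl]
  have hOsub : line '' Set.range (dftRow n) ⊆ line '' X :=
    Set.image_mono (by rintro _ ⟨j, rfl⟩; exact hrows j)
  have hOcard : (line '' Set.range (dftRow n)).ncard = n := by
    rw [← Set.range_comp, Set.ncard_range_of_injective]
    · simp [Nat.card_eq_fintype_card]
    · intro j j' hjj
      exact dftRow_par hn ((line_eq_iff _ _).mp hjj)
  have hsum := Set.ncard_sdiff_add_ncard_of_subset hOsub (hfin.image _)
  have hle := h.ncard_lines_le
  rw [hNL] at hmain
  omega

/-- Every linear circuit computing the discrete Fourier transform of length `n ≥ 2` has at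
least `4 n - τ(n) - Omega(n) - 3` gates. -/
theorem strong_bound (n : ℕ) (hn : 2 ≤ n) (C : List Gate) (hC : ComputesDFT n C) :
    4 * n ≤ C.length + (Nat.divisors n).card + cardFactors n + 3 := by
  obtain ⟨A, M, hlen, hR⟩ := reach_runV n C
  have hrows : ∀ j, dftRow n j ∈ {v | v ∈ runV n C} :=
    fun j => dftRow_mem_of_computes (by omega) hC j
  have h1 := addsub_bound hn hR hrows
  have h2 := scalar_bound (by omega) hR hrows
  omega

end Vale.Agent.Lib.P344
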