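import Mathlib
import Vale.Agent.Lib.P344.MulPoly
import Vale.Agent.Lib.P344.Main

/-!
Scalar multiplications, part 4: prime length.  The multiplicative group of the residues modulo
a prime `p` permutes the rows of the Fourier matrix; this supplies the operator for the
potential argument.
-/

namespace Vale.Agent.Lib.P344

open Polynomial

/-- Multiplication of an index by a residue `a` modulo `p`. -/
def mulIdx (p : ℕ) [NeZero p] (a : ZMod p) (m : Fin p) : Fin p :=
  ⟨(a * ((m : ℕ) : ZMod p)).val, ZMod.val_lt _⟩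

lemma mulIdx_cast (p : ℕ) [NeZero p] (a : ZMod p) (m : Fin p) :
    (((mulIdx p a m : Fin p) : ℕ) : ZMod p) = a * ((m : ℕ) : ZMod p) :=
  ZMod.natCast_zmod_val _

lemma mulIdx_mul (p : ℕ) [NeZero p] (a b : ZMod p) (m : Fin p) :
    mulIdx p a (mulIdx p b m) = mulIdx p (a * b) m := by
  apply Fin.ext
  change (a * (((mulIdx p b m : Fin p) : ℕ) : ZMod p)).val = (a * b * ((m : ℕ) : ZMod p)).val
  rw [mulIdx_cast, mul_assoc]

lemma mulIdx_one (p : ℕ) [NeZero p] (m : Fin p) : mulIdx p 1 m = m := by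
  apply Fin.ext
  change (1 * ((m : ℕ) : ZMod p)).val = (m : ℕ)
  rw [one_mul, ZMod.val_natCast_of_lt m.2]

lemma mulIdx_val_zero (p : ℕ) [NeZero p] (a : ZMod p) (m : Fin p) (hm : (m : ℕ) = 0) :
    ((mulIdx p a m : Fin p) : ℕ) = 0 := by
  change (a * ((m : ℕ) : ZMod p)).val = 0
  rw [hm, Nat.cast_zero, mul_zero, ZMod.val_zero]

/-- The operator on rational vectors that permutes the coordinates by multiplication of the
index by `a`. -/
def shiftOp (p : ℕ) [NeZero p] (a : ZMod p) : Module.End ℚ (Fin p → ℚ) :=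
  LinearMap.funLeft ℚ ℚ (mulIdx p a)

lemma shiftOp_apply (p : ℕ) [NeZero p] (a : ZMod p) (b : Fin p → ℚ) (m : Fin p) :
    shiftOp p a b m = b (mulIdx p a m) := rfl

lemma shiftOp_mul (p : ℕ) [NeZero p] (a b : ZMod p) :
    shiftOp p a * shiftOp p b = shiftOp p (b * a) :=
  LinearMap.ext fun s => funext fun m => by
    rw [Module.End.mul_apply, shiftOp_apply, shiftOp_apply, shiftOp_apply, mulIdx_mul]

lemma shiftOp_one (p : ℕ) [NeZero p] : shiftOp p 1 = 1 :=
  LinearMap.ext fun s => funext fun m => by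
    rw [shiftOp_apply, mulIdx_one]
    rfl

lemma shiftOp_pow (p : ℕ) [NeZero p] (a : ZMod p) (t : ℕ) :
    shiftOp p a ^ t = shiftOp p (a ^ t) := by
  induction t with
  | zero => rw [pow_zero, pow_zero, shiftOp_one]
  | succ t ih => rw [pow_succ, ih, shiftOp_mul, ← pow_succ']

lemma zeta_pow_mulIdx (p : ℕ) [Fact p.Prime] (a : ZMod p) (ha : a ≠ 0) (j k : Fin p) :
    zeta p ^ (((mulIdx p a⁻¹ j : Fin p) : ℕ) * ((mulIdx p a k : Fin p) : ℕ)) =
      zeta p ^ ((j : ℕ) * (k : ℕ)) := by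
  rw [zeta_pow_eq_iff (NeZero.ne p)]
  push_cast
  rw [mulIdx_cast, mulIdx_cast]
  field_simp

/-- Multiplication of the index by a nonzero residue is a permutation of the indices. -/
def mulEquiv (p : ℕ) [Fact p.Prime] (a : ZMod p) (ha : a ≠ 0) : Fin p ≃ Fin p where
  toFun := mulIdx p a
  invFun := mulIdx p a⁻¹
  left_inv m := by rw [mulIdx_mul, inv_mul_cancel₀ ha, mulIdx_one]
  right_inv m := by rw [mulIdx_mul, mul_inv_cancel₀ ha, mulIdx_one]

lemma pairQ_shift (p : ℕ) [Fact p.Prime] (a : ZMod p) (ha : a ≠ 0) (j : Fin p)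
    (b : Fin p → ℚ) :
    pairQ (dftRow p j) (shiftOp p a b) = pairQ (dftRow p (mulIdx p a⁻¹ j)) b := by
  unfold pairQ
  rw [← Equiv.sum_comp (mulEquiv p a ha)
    (fun k => dftRow p (mulIdx p a⁻¹ j) k * ((b k : ℚ) : ℂ))]
  refine Finset.sum_congr rfl fun k _ => ?_
  change dftRow p j k * ((b (mulIdx p a k) : ℚ) : ℂ) =
    dftRow p (mulIdx p a⁻¹ j) (mulIdx p a k) * ((b (mulIdx p a k) : ℚ) : ℂ)
  rw [dftRow_apply, dftRow_apply, zeta_pow_mulIdx p a ha]

/-- If the first Fourier coefficient of a rational vector `b` of prime length is rational, then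
all coordinates of `b` except the one with index `0` are equal. -/
lemma rat_comb (p : ℕ) [hp : Fact p.Prime] (b : Fin p → ℚ) (q : ℚ)
    (h : pairQ (dftRow p ⟨1, hp.out.one_lt⟩) b = (q : ℂ)) (k : Fin p) (hk : (k : ℕ) ≠ 0) :
    b k = b ⟨0, hp.out.pos⟩ - q := by
  have hp0 : p ≠ 0 := hp.out.ne_zero
  obtain ⟨Q, hQ⟩ : ∃ Q : ℚ[X], Q = ∑ i : Fin p, C (b i) * X ^ (i : ℕ) := ⟨_, rfl⟩
  have hQcoeff : ∀ i : Fin p, Q.coeff (i : ℕ) = b i := by
    intro i
    rw [hQ, finsetSum_coeff, Finset.sum_eq_single i]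
    · simp
    · intro j _ hji
      rw [coeff_C_mul, coeff_X_pow, if_neg, mul_zero]
      exact fun h => hji (Fin.ext h.symm)
    · intro h
      exact absurd (Finset.mem_univ i) h
  have hQdeg : Q.degree < p := by
    rw [hQ]
    exact degree_sum_fin_lt b
  have hQeval : aeval (zeta p) Q = (q : ℂ) := by
    rw [← h, hQ, map_sum]
    unfold pairQ
    refine Finset.sum_congr rfl fun i _ => ?_
    rw [map_mul, aeval_C, map_pow, aeval_X, dftRow_apply]
    simp [mul_comm]
  have h0 : aeval (zeta p) (Q - C q) = 0 := by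
    rw [map_sub, hQeval, aeval_C]
    simp
  have hdvd : cyclotomic p ℚ ∣ Q - C q := by
    rw [cyclotomic_eq_minpoly_rat (zeta_prim p hp0) hp.out.pos]
    exact minpoly.dvd ℚ _ h0
  obtain ⟨R, hR⟩ := hdvd
  have hRdeg : R.natDegree = 0 := by
    by_cases hR0 : R = 0
    · rw [hR0, natDegree_zero]
    · have hc0 : cyclotomic p ℚ ≠ 0 := cyclotomic_ne_zero p ℚ
      have hne : Q - C q ≠ 0 := by
        rw [hR]
        exact mul_ne_zero hc0 hR0
      have hd1 : (Q - C q).natDegree = (cyclotomic p ℚ).natDegree + R.natDegree := by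
        rw [hR, natDegree_mul hc0 hR0]
      have hd2 : (Q - C q).natDegree < p := by
        rw [natDegree_lt_iff_degree_lt hne]
        refine lt_of_le_of_lt (degree_sub_le _ _) (max_lt hQdeg ?_)
        exact lt_of_le_of_lt degree_C_le (by exact_mod_cast hp.out.pos)
      rw [natDegree_cyclotomic, Nat.totient_prime hp.out] at hd1
      omega
  obtain ⟨c, hc⟩ : ∃ c : ℚ, R = C c := ⟨R.coeff 0, eq_C_of_natDegree_eq_zero hRdeg⟩
  have hcoeff : ∀ i : Fin p, (Q - C q).coeff (i : ℕ) = c := by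
    intro i
    rw [hR, hc, coeff_mul_C, cyclotomic_prime, finsetSum_coeff]
    simp [coeff_X_pow, i.2]
  have hk' := hcoeff k
  have h0' := hcoeff ⟨0, hp.out.pos⟩
  rw [coeff_sub, hQcoeff, coeff_C, if_neg hk] at hk'
  rw [coeff_sub, hQcoeff, coeff_C] at h0'
  simp only [if_true] at h0'
  linarith

/-- The rational vectors whose coordinate with index `0` vanishes. -/
def zeroSub (p : ℕ) : Submodule ℚ (Fin p → ℚ) where
  carrier := {s | ∀ m : Fin p, (m : ℕ) = 0 → s m = 0}
  add_mem' := by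
    intro s t hs ht m hm
    rw [Pi.add_apply, hs m hm, ht m hm, add_zero]
  zero_mem' := fun _ _ => rfl
  smul_mem' := by
    intro c s hs m hm
    rw [Pi.smul_apply, hs m hm, smul_zero]

lemma mem_zeroSub {p : ℕ} {s : Fin p → ℚ} :
    s ∈ zeroSub p ↔ ∀ m : Fin p, (m : ℕ) = 0 → s m = 0 := Iff.rfl

lemma f1_inj (p : ℕ) [hp : Fact p.Prime] (s : Fin p → ℚ) (hs : s ∈ zeroSub p)
    (h : pairQ (dftRow p ⟨1, hp.out.one_lt⟩) s = 0) : s = 0 := by
  funext k
  by_cases hk : (k : ℕ) = 0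
  · exact hs k hk
  · have h' : pairQ (dftRow p ⟨1, hp.out.one_lt⟩) s = ((0 : ℚ) : ℂ) := by
      rw [h]
      simp
    rw [rat_comb p s 0 h' k hk, hs ⟨0, hp.out.pos⟩ rfl]
    simp

lemma zeroSub_invariant (p : ℕ) [NeZero p] (u : ZMod p) (q : ℚ[X]) (s : Fin p → ℚ)
    (hs : s ∈ zeroSub p) : aeval (shiftOp p u) q s ∈ zeroSub p := by
  rw [aeval_eq_sum_range, LinearMap.sum_apply]
  refine Submodule.sum_mem _ fun i _ => ?_
  rw [LinearMap.smul_apply]
  refine Submodule.smul_mem _ _ ?_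
  intro m hm
  rw [shiftOp_pow, shiftOp_apply]
  exact hs _ (mulIdx_val_zero p _ m hm)

lemma theta_exists (p : ℕ) [hp : Fact p.Prime] (u : ZMod p) (hu : u ≠ 0)
    (V : Submodule ℚ (Fin p → ℂ)) (hrows : ∀ j, dftRow p j ∈ V) (q : ℚ[X]) :
    ∃ v ∈ V, ∀ b : Fin p → ℚ, pairQ v b =
      pairQ (dftRow p ⟨1, hp.out.one_lt⟩) (aeval (shiftOp p u) q b) := by
  refine ⟨∑ i ∈ Finset.range (q.natDegree + 1),
    q.coeff i • dftRow p (mulIdx p (u ^ i)⁻¹ ⟨1, hp.out.one_lt⟩), ?_, ?_⟩
  · exact Submodule.sum_mem _ fun i _ => Submodule.smul_mem _ _ (hrows _)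
  · intro b
    rw [aeval_eq_sum_range, LinearMap.sum_apply, ← pairL_apply, map_sum, ← pairR_apply, map_sum]
    refine Finset.sum_congr rfl fun i _ => ?_
    rw [LinearMap.smul_apply, map_smul, map_smul, pairL_apply, pairR_apply, shiftOp_pow,
      pairQ_shift p (u ^ i) (pow_ne_zero i hu)]

lemma shiftOp_pow_card (p : ℕ) [hp : Fact p.Prime] (u : ZMod p) (hu : u ≠ 0) :
    shiftOp p u ^ (p - 1) = 1 := by
  rw [shiftOp_pow, ZMod.pow_card_sub_one_eq_one hu, shiftOp_one]

lemma exists_gen (p : ℕ) [hp : Fact p.Prime] : ∃ u : ZMod p, u ≠ 0 ∧ orderOf u = p - 1 := by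
  obtain ⟨g, hg⟩ := IsCyclic.exists_generator (α := (ZMod p)ˣ)
  refine ⟨(g : ZMod p), g.ne_zero, ?_⟩
  rw [orderOf_units, orderOf_eq_card_of_forall_mem_zpowers hg, Nat.card_eq_fintype_card,
    ZMod.card_units]

lemma finrank_zeroSub_ge (p : ℕ) [hp : Fact p.Prime] :
    p - 1 ≤ Module.finrank ℚ (zeroSub p) := by
  let f : (Fin p → ℚ) →ₗ[ℚ] ℚ := LinearMap.proj (⟨0, hp.out.pos⟩ : Fin p)
  have hle : LinearMap.ker f ≤ zeroSub p := by
    intro s hs m hm
    have hm' : m = ⟨0, hp.out.pos⟩ := Fin.ext hm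
    rw [hm']
    exact hs
  have h1 := Submodule.finrank_mono hle
  have h2 := LinearMap.finrank_range_add_finrank_ker f
  have h3 : Module.finrank ℚ (LinearMap.range f) ≤ 1 := by
    have := Submodule.finrank_le (LinearMap.range f)
    rwa [Module.finrank_self] at this
  rw [Module.finrank_fin_fun] at h2
  omega

lemma annDeg_zeroSub_ge (p : ℕ) [hp : Fact p.Prime] (u : ZMod p) (hu : u ≠ 0)
    (hord : orderOf u = p - 1) : p - 1 ≤ annDeg (shiftOp p u) (zeroSub p) := by
  by_contra hlt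
  rw [not_le] at hlt
  have hN : 0 < p - 1 := by
    have := hp.out.two_le
    omega
  have hg0 : annGen (shiftOp p u) (zeroSub p) ≠ 0 :=
    annGen_ne_zero hN (shiftOp_pow_card p u hu) _
  obtain ⟨g, hg⟩ : ∃ g : ℚ[X], g = annGen (shiftOp p u) (zeroSub p) := ⟨_, rfl⟩
  have hgd : g.natDegree < p - 1 := by
    rw [hg]
    exact hlt
  rw [← hg] at hg0
  obtain ⟨i1, hi1⟩ : ∃ i1 : Fin p, i1 = ⟨1, hp.out.one_lt⟩ := ⟨_, rfl⟩
  have hi1v : (i1 : ℕ) = 1 := by rw [hi1]
  have he1 : (Pi.single i1 1 : Fin p → ℚ) ∈ zeroSub p := by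
    intro m hm
    have hne : m ≠ i1 := by
      intro h
      rw [h, hi1v] at hm
      exact one_ne_zero hm
    rw [Pi.single_apply, if_neg hne]
  have h0 : aeval (shiftOp p u) g (Pi.single i1 1) = 0 := by
    rw [hg]
    exact annGen_mem _ _ _ he1
  have h1 := congrFun h0 (mulIdx p (u ^ g.natDegree)⁻¹ i1)
  rw [aeval_eq_sum_range, LinearMap.sum_apply, Finset.sum_apply,
    Finset.sum_eq_single g.natDegree] at h1
  · rw [LinearMap.smul_apply, Pi.smul_apply, shiftOp_pow, shiftOp_apply, mulIdx_mul,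
      mul_inv_cancel₀ (pow_ne_zero _ hu), mulIdx_one, Pi.single_apply, if_pos rfl, Pi.zero_apply,
      smul_eq_mul, mul_one] at h1
    exact hg0 (leadingCoeff_eq_zero.mp h1)
  · intro t ht htne
    rw [LinearMap.smul_apply, Pi.smul_apply, shiftOp_pow, shiftOp_apply, mulIdx_mul]
    have hne : mulIdx p (u ^ t * (u ^ g.natDegree)⁻¹) i1 ≠ i1 := by
      intro heq
      have h2 := congrArg (fun m : Fin p => ((m : ℕ) : ZMod p)) heq
      simp only [mulIdx_cast] at h2
      rw [hi1v, Nat.cast_one, mul_one, mul_inv_eq_one₀ (pow_ne_zero _ hu)] at h2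
      have htlt : t < orderOf u := by
        have := Finset.mem_range.mp ht
        omega
      have hdlt : g.natDegree < orderOf u := by omega
      exact htne (pow_injOn_Iio_orderOf (Set.mem_Iio.mpr htlt) (Set.mem_Iio.mpr hdlt) h2)
    rw [Pi.single_apply, if_neg hne, smul_zero]
  · intro h
    exact absurd (Finset.self_mem_range_succ _) h

lemma mulIdx_val_ne_zero (p : ℕ) [hp : Fact p.Prime] (u : ZMod p) (hu : u ≠ 0) (m : Fin p)
    (hm : (m : ℕ) ≠ 0) : ((mulIdx p u m : Fin p) : ℕ) ≠ 0 := by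
  intro h
  have h1 : (((mulIdx p u m : Fin p) : ℕ) : ZMod p) = 0 := by
    rw [h, Nat.cast_zero]
  rw [mulIdx_cast] at h1
  rcases mul_eq_zero.mp h1 with h2 | h2
  · exact hu h2
  · rw [ZMod.natCast_eq_zero_iff] at h2
    exact hm (Nat.eq_zero_of_dvd_of_lt h2 m.2)

lemma end_case (p : ℕ) [hp : Fact p.Prime] (u : ZMod p) (hu : u ≠ 0)
    (V : Submodule ℚ (Fin p → ℂ)) (hf1 : dftRow p ⟨1, hp.out.one_lt⟩ ∈ V)
    (S : Submodule ℚ (Fin p → ℚ)) (hS : S ≤ zeroSub p) (hall : ∀ v ∈ V, v ∈ ratOn S) :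
    Module.finrank ℚ S + annDeg (shiftOp p u) S ≤ 2 * annFac (shiftOp p u) S := by
  have hN : 0 < p - 1 := by
    have := hp.out.two_le
    omega
  have hPN := shiftOp_pow_card p u hu
  by_cases hbot : S = ⊥
  · have h1 : (1 : ℚ[X]) ∈ annIdeal (shiftOp p u) S := by
      intro s hs
      rw [hbot, Submodule.mem_bot] at hs
      rw [hs, map_zero]
    have h2 : annGen (shiftOp p u) S ∣ 1 := mem_annIdeal_iff_dvd.mp h1
    have h3 : annDeg (shiftOp p u) S ≤ 0 := by
      have := natDegree_le_of_dvd h2 one_ne_zero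
      rwa [natDegree_one] at this
    have h4 : Module.finrank ℚ S = 0 := by
      rw [hbot, finrank_bot]
    omega
  · have hrat : ∀ s ∈ S, ∃ q : ℚ, ∀ k : Fin p, (k : ℕ) ≠ 0 → s k = -q := by
      intro s hs
      obtain ⟨q, hq⟩ := hall _ hf1 s hs
      refine ⟨q, fun k hk => ?_⟩
      rw [rat_comb p s q hq k hk, hS hs ⟨0, hp.out.pos⟩ rfl, zero_sub]
    have hfin : Module.finrank ℚ S ≤ 1 := by
      have hle : S ≤ ⊥ ⊔ Submodule.span ℚ {fun k : Fin p => if (k : ℕ) = 0 then (0 : ℚ) else 1} := by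
        intro s hs
        obtain ⟨q, hq⟩ := hrat s hs
        apply Submodule.mem_sup_right
        apply Submodule.mem_span_singleton.mpr
        refine ⟨-q, ?_⟩
        funext k
        by_cases hk : (k : ℕ) = 0
        · rw [Pi.smul_apply, if_pos hk, smul_zero, hS hs k hk]
        · rw [Pi.smul_apply, if_neg hk, hq k hk, smul_eq_mul, mul_one]
      have := finrank_le_of_le_sup_span hle
      rwa [finrank_bot, zero_add] at this
    have hfix : (X - C 1 : ℚ[X]) ∈ annIdeal (shiftOp p u) S := by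
      intro s hs
      obtain ⟨q, hq⟩ := hrat s hs
      rw [map_sub, aeval_X, aeval_C, LinearMap.sub_apply, sub_eq_zero, map_one,
        Module.End.one_apply]
      funext m
      rw [shiftOp_apply]
      by_cases hm : (m : ℕ) = 0
      · rw [hS hs m hm, hS hs _ (mulIdx_val_zero p u m hm)]
      · rw [hq m hm, hq _ (mulIdx_val_ne_zero p u hu m hm)]
    have hdeg : annDeg (shiftOp p u) S ≤ 1 := by
      have := natDegree_le_of_dvd (mem_annIdeal_iff_dvd.mp hfix) (X_sub_C_ne_zero (1 : ℚ))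
      rwa [natDegree_X_sub_C] at this
    have hfac : 1 ≤ annFac (shiftOp p u) S := by
      have hnu : ¬ IsUnit (annGen (shiftOp p u) S) := by
        intro hunit
        obtain ⟨s, hs, hs0⟩ := Submodule.exists_mem_ne_zero_of_ne_bot hbot
        have h1 : (1 : ℚ[X]) ∈ annIdeal (shiftOp p u) S :=
          mem_annIdeal_iff_dvd.mpr (isUnit_iff_dvd_one.mp hunit)
        have h2 := h1 s hs
        rw [map_one, Module.End.one_apply] at h2
        exact hs0 h2
      have hpos := (UniqueFactorizationMonoid.normalizedFactors_pos _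
        (annGen_ne_zero hN hPN S)).mpr hnu
      exact Multiset.card_pos.mpr (ne_of_gt hpos)
    omega

lemma dperp_zeroSub_pos (p : ℕ) [hp : Fact p.Prime] (V : Submodule ℚ (Fin p → ℂ))
    [FiniteDimensional ℚ V] (hunit : ∀ k, unitVec k ∈ V) : 1 ≤ dperp V (zeroSub p) := by
  have hfd : FiniteDimensional ℚ ↥(V ⊓ perpQ (zeroSub p)) :=
    Submodule.finiteDimensional_of_le inf_le_left
  have hmem : unitVec (⟨0, hp.out.pos⟩ : Fin p) ∈ V ⊓ perpQ (zeroSub p) := by
    refine ⟨hunit _, fun s hs => ?_⟩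
    rw [pairQ_unitVec, hs ⟨0, hp.out.pos⟩ rfl]
    simp
  have hne : (⟨unitVec (⟨0, hp.out.pos⟩ : Fin p), hmem⟩ : ↥(V ⊓ perpQ (zeroSub p))) ≠ 0 := by
    intro h
    have h1 := congrArg Subtype.val h
    have h2 := congrFun h1 ⟨0, hp.out.pos⟩
    simp [unitVec] at h2
  exact Module.finrank_pos_iff_exists_ne_zero.mpr ⟨_, hne⟩

/-- Scalar multiplications for prime length: at least `2 p - 2 τ(p - 1) - 2` of them. -/
theorem scalar_bound_prime {p A M : ℕ} (hp : p.Prime) {X : Set (Fin p → ℂ)}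
    (h : Reach p A M X) (hrows : ∀ j, dftRow p j ∈ X) :
    2 * p ≤ M + 2 * (Nat.divisors (p - 1)).card + 2 := by
  have hfact : Fact p.Prime := ⟨hp⟩
  obtain ⟨u, hu, hord⟩ := exists_gen p
  have hfdV := h.finiteDimensional_span
  have hunit : ∀ k, unitVec k ∈ Submodule.span ℚ X :=
    fun k => Submodule.subset_span (h.unit_mem k)
  have hrowsV : ∀ j, dftRow p j ∈ Submodule.span ℚ X :=
    fun j => Submodule.subset_span (hrows j)
  have hN : 0 < p - 1 := by
    have := hp.two_le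
    omega
  have hPN := shiftOp_pow_card p u hu
  have hpot := potential_bound (Submodule.span ℚ X) hunit (fun S hex => h.first_gate S hex)
    (shiftOp p u) hN hPN (zeroSub p) (zeroSub_invariant p u) (dftRow p ⟨1, hp.one_lt⟩)
    (f1_inj p) (theta_exists p u hu _ hrowsV) (end_case p u hu _ (hrowsV _)) _ (zeroSub p)
    le_rfl rfl
  have h1 := finrank_zeroSub_ge p
  have h2 := annDeg_zeroSub_ge p u hu hord
  have h3 := annFac_le_divisors hN hPN (zeroSub p)
  have h4 := h.finrank_span_le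
  have h5 := dperp_zeroSub_pos p _ hunit
  omega

/-- Total gate count for prime length. -/
theorem prime_bound (p : ℕ) (hp : p.Prime) (C : List Gate) (hC : ComputesDFT p C) :
    5 * p ≤ C.length + 2 * (Nat.divisors (p - 1)).card + 6 := by
  obtain ⟨A, M, hlen, hR⟩ := reach_runV p C
  have hrows : ∀ j, dftRow p j ∈ {v | v ∈ runV p C} :=
    fun j => dftRow_mem_of_computes hp.pos hC j
  have h1 := addsub_bound hp.two_le hR hrows
  have h2 := scalar_bound_prime hp hR hrows
  rw [ArithmeticFunction.cardFactors_apply_prime hp] at h1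
  omega

end Vale.Agent.Lib.P344
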