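import Mathlib
import Vale.Agent.Lib.P344.MulPrime
import Vale.Agent.Lib.P344.Chain

/-!
Scalar multiplications, general length: the rational span of the rows of the Fourier matrix,
the permutation of the rows by multiplication of the index by a unit, and the invariance of
the rows vanishing on a rational subspace of inputs.
-/

namespace Vale.Agent.Lib.P344

open Polynomial

/-- The rational span of the rows of the Fourier matrix. -/
noncomputable def rowSpan (n : ℕ) : Submodule ℚ (Fin n → ℂ) :=
  Submodule.span ℚ (Set.range (dftRow n))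

/-- The operator on coefficient vectors that permutes the coordinates by multiplication of the
index by `a`. -/
noncomputable def rowOp (n : ℕ) [NeZero n] (a : ZMod n) : Module.End ℚ (Fin n → ℂ) :=
  LinearMap.funLeft ℚ ℂ (mulIdx n a)

lemma rowOp_apply (n : ℕ) [NeZero n] (a : ZMod n) (v : Fin n → ℂ) (k : Fin n) :
    rowOp n a v k = v (mulIdx n a k) := rfl

lemma rowOp_mul (n : ℕ) [NeZero n] (a b : ZMod n) :
    rowOp n a * rowOp n b = rowOp n (b * a) :=
  LinearMap.ext fun s => funext fun m => by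
    rw [Module.End.mul_apply, rowOp_apply, rowOp_apply, rowOp_apply, mulIdx_mul]

lemma rowOp_one (n : ℕ) [NeZero n] : rowOp n 1 = 1 :=
  LinearMap.ext fun s => funext fun m => by
    rw [rowOp_apply, mulIdx_one]
    rfl

lemma rowOp_pow (n : ℕ) [NeZero n] (a : ZMod n) (t : ℕ) :
    rowOp n a ^ t = rowOp n (a ^ t) := by
  induction t with
  | zero => rw [pow_zero, pow_zero, rowOp_one]
  | succ t ih => rw [pow_succ, ih, rowOp_mul, ← pow_succ']

lemma rowOp_dftRow (n : ℕ) [NeZero n] (a : ZMod n) (j : Fin n) :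
    rowOp n a (dftRow n j) = dftRow n (mulIdx n a j) := by
  funext k
  rw [rowOp_apply, dftRow_apply, dftRow_apply, zeta_pow_eq_iff (NeZero.ne n)]
  push_cast
  rw [mulIdx_cast, mulIdx_cast]
  ring

lemma rowOp_mem_rowSpan (n : ℕ) [NeZero n] (a : ZMod n) {v : Fin n → ℂ} (hv : v ∈ rowSpan n) :
    rowOp n a v ∈ rowSpan n := by
  unfold rowSpan at hv ⊢
  induction hv using Submodule.span_induction with
  | mem v hv =>
    obtain ⟨j, rfl⟩ := hv
    rw [rowOp_dftRow]
    exact Submodule.subset_span (Set.mem_range_self _)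
  | zero =>
    rw [map_zero]
    exact Submodule.zero_mem _
  | add v w _ _ ihv ihw =>
    rw [map_add]
    exact Submodule.add_mem _ ihv ihw
  | smul c v _ ih =>
    rw [map_smul]
    exact Submodule.smul_mem _ _ ih

/-- The value of a rational combination of rows at a rational input, and the value of the
permuted combination, are the values of one rational polynomial at two primitive roots. -/
lemma exists_poly (n : ℕ) [NeZero n] (a : ZMod n) (x : Fin n → ℚ) {v : Fin n → ℂ}
    (hv : v ∈ rowSpan n) :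
    ∃ P : ℚ[X], pairQ v x = aeval (zeta n) P ∧
      pairQ (rowOp n a v) x = aeval (zeta n ^ a.val) P := by
  unfold rowSpan at hv
  induction hv using Submodule.span_induction with
  | mem v hv =>
    obtain ⟨j, rfl⟩ := hv
    refine ⟨∑ k : Fin n, C (x k) * X ^ ((j : ℕ) * (k : ℕ)), ?_, ?_⟩
    · rw [map_sum]
      unfold pairQ
      refine Finset.sum_congr rfl fun k _ => ?_
      rw [map_mul, aeval_C, map_pow, aeval_X, dftRow_apply, mul_comm]
      rfl
    · rw [map_sum]
      unfold pairQ
      refine Finset.sum_congr rfl fun k _ => ?_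
      rw [map_mul, aeval_C, map_pow, aeval_X, rowOp_apply, dftRow_apply, mul_comm, ← pow_mul]
      congr 1
      rw [zeta_pow_eq_iff (NeZero.ne n)]
      push_cast
      rw [mulIdx_cast, ZMod.natCast_zmod_val]
      ring
  | zero =>
    refine ⟨0, ?_, ?_⟩
    · rw [pairQ_zero_left, map_zero]
    · rw [map_zero, pairQ_zero_left, map_zero]
  | add v w _ _ ihv ihw =>
    obtain ⟨P, hP1, hP2⟩ := ihv
    obtain ⟨P', hP1', hP2'⟩ := ihw
    refine ⟨P + P', ?_, ?_⟩
    · rw [pairQ_add_left, hP1, hP1', map_add]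
    · rw [map_add, pairQ_add_left, hP2, hP2', map_add]
  | smul c v _ ih =>
    obtain ⟨P, hP1, hP2⟩ := ih
    refine ⟨C c * P, ?_, ?_⟩
    · rw [pairQ_qsmul_left, hP1, map_mul, aeval_C]
      rfl
    · rw [map_smul, pairQ_qsmul_left, hP2, map_mul, aeval_C]
      rfl

/-- A rational combination of rows that vanishes at a rational input still vanishes there
after the rows are permuted by a unit. -/
lemma pairQ_rowOp_eq_zero (n : ℕ) [NeZero n] (u : (ZMod n)ˣ) (x : Fin n → ℚ) {v : Fin n → ℂ}
    (hv : v ∈ rowSpan n) (h0 : pairQ v x = 0) : pairQ (rowOp n (u : ZMod n) v) x = 0 := by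
  obtain ⟨P, hP1, hP2⟩ := exists_poly n (u : ZMod n) x hv
  have hn0 : n ≠ 0 := NeZero.ne n
  have hnpos : 0 < n := Nat.pos_of_ne_zero hn0
  have hprim : IsPrimitiveRoot (zeta n ^ (u : ZMod n).val) n :=
    (zeta_prim n hn0).pow_of_coprime _ (ZMod.val_coe_unit_coprime u)
  have hdvd : cyclotomic n ℚ ∣ P := by
    rw [cyclotomic_eq_minpoly_rat (zeta_prim n hn0) hnpos]
    apply minpoly.dvd
    rw [← hP1, h0]
  obtain ⟨R, hR⟩ := hdvd
  rw [hP2, hR, map_mul]
  have : aeval (zeta n ^ (u : ZMod n).val) (cyclotomic n ℚ) = 0 := by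
    rw [aeval_def, eval₂_eq_eval_map, map_cyclotomic]
    exact hprim.isRoot_cyclotomic hnpos
  rw [this, zero_mul]

/-- The rational combinations of rows vanishing on `S`. -/
noncomputable def rowPerp (n : ℕ) (S : Submodule ℚ (Fin n → ℚ)) : Submodule ℚ (Fin n → ℂ) :=
  rowSpan n ⊓ perpQ S

lemma rowPerp_inv (n : ℕ) [NeZero n] (u : (ZMod n)ˣ) (S : Submodule ℚ (Fin n → ℚ)) :
    InvSub (rowOp n (u : ZMod n)) (rowPerp n S) := by
  intro v hv
  exact ⟨rowOp_mem_rowSpan n _ hv.1, fun s hs => pairQ_rowOp_eq_zero n u s hv.1 (hv.2 s hs)⟩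

lemma rowPerp_anti (n : ℕ) {H S : Submodule ℚ (Fin n → ℚ)} (h : H ≤ S) :
    rowPerp n S ≤ rowPerp n H :=
  inf_le_inf_left _ (perpQ_anti h)

end Vale.Agent.Lib.P344
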