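import Mathlib
import Vale.Agent.Lib.P344.GenDft

/-!
Scalar multiplications, general length: the potential argument with the rows permuted by a
unit.
-/

namespace Vale.Agent.Lib.P344

open Polynomial

/-- The number of independent rational combinations of rows vanishing on `S`. -/
noncomputable def rperp (n : ℕ) (S : Submodule ℚ (Fin n → ℚ)) : ℕ :=
  Module.finrank ℚ ↥(rowPerp n S)

lemma rowSpan_fd (n : ℕ) : FiniteDimensional ℚ (rowSpan n) :=
  FiniteDimensional.span_of_finite ℚ (Set.finite_range _)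

lemma finrank_rowSpan (n : ℕ) (hn : n ≠ 0) : Module.finrank ℚ (rowSpan n) = n := by
  unfold rowSpan
  rw [finrank_span_eq_card (dftRow_li n hn)]
  simp

lemma rowPerp_fd (n : ℕ) (S : Submodule ℚ (Fin n → ℚ)) : FiniteDimensional ℚ (rowPerp n S) := by
  have := rowSpan_fd n
  exact Submodule.finiteDimensional_of_le (inf_le_left : rowPerp n S ≤ rowSpan n)

lemma rperp_mono (n : ℕ) {H S : Submodule ℚ (Fin n → ℚ)} (h : H ≤ S) :
    rperp n S ≤ rperp n H := by
  have := rowPerp_fd n H
  exact Submodule.finrank_mono (rowPerp_anti n h)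

lemma dperp_rperp {n : ℕ} (V : Submodule ℚ (Fin n → ℂ)) [FiniteDimensional ℚ V]
    (hW : rowSpan n ≤ V) {H S : Submodule ℚ (Fin n → ℚ)} (h : H ≤ S) :
    dperp V S + rperp n H ≤ dperp V H + rperp n S := by
  have hV2 : V ⊓ perpQ H ≤ V := inf_le_left
  have hsup : (V ⊓ perpQ S) ⊔ rowPerp n H ≤ V ⊓ perpQ H :=
    sup_le (inf_le_inf_left V (perpQ_anti h)) (inf_le_inf_right _ hW)
  have hinf : (V ⊓ perpQ S) ⊓ rowPerp n H ≤ rowPerp n S := by
    rintro x ⟨⟨_, hx1⟩, ⟨hx2, _⟩⟩
    exact ⟨hx2, hx1⟩
  have : FiniteDimensional ℚ ↥(V ⊓ perpQ H) := Submodule.finiteDimensional_of_le hV2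
  have : FiniteDimensional ℚ ↥(V ⊓ perpQ S) :=
    Submodule.finiteDimensional_of_le (inf_le_left : V ⊓ perpQ S ≤ V)
  have := rowPerp_fd n H
  have := rowPerp_fd n S
  have hsum := Submodule.finrank_sup_add_finrank_inf_eq (V ⊓ perpQ S) (rowPerp n H)
  have h1 : Module.finrank ℚ ↥((V ⊓ perpQ S) ⊔ rowPerp n H) ≤ Module.finrank ℚ ↥(V ⊓ perpQ H) :=
    Submodule.finrank_mono hsup
  have h2 : Module.finrank ℚ ↥((V ⊓ perpQ S) ⊓ rowPerp n H) ≤ Module.finrank ℚ ↥(rowPerp n S) :=
    Submodule.finrank_mono hinf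
  unfold dperp rperp
  omega

lemma rperp_top (n : ℕ) : rperp n ⊤ = 0 := by
  have hbot : rowPerp n (⊤ : Submodule ℚ (Fin n → ℚ)) = ⊥ := by
    rw [eq_bot_iff]
    rintro v ⟨_, hv⟩
    rw [Submodule.mem_bot]
    funext k
    have h := hv (Pi.single k 1) Submodule.mem_top
    have h2 : pairQ v (Pi.single k 1) = v k := by
      unfold pairQ
      rw [Finset.sum_eq_single k]
      · rw [Pi.single_eq_same, Rat.cast_one, mul_one]
      · intro j _ hjk
        rw [Pi.single_eq_of_ne hjk, Rat.cast_zero, mul_zero]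
      · intro hk
        exact absurd (Finset.mem_univ k) hk
    rw [h2] at h
    exact h
  unfold rperp
  rw [hbot, finrank_bot]

/-- If all rows are rational on `S`, then at most `dim S` of their rational combinations are
independent on `S`. -/
lemma rperp_ge (n : ℕ) (hn : n ≠ 0) (S : Submodule ℚ (Fin n → ℚ))
    (hrat : ∀ v ∈ rowSpan n, v ∈ ratOn S) : n ≤ rperp n S + Module.finrank ℚ S := by
  have hinj : LinearMap.ker (Algebra.linearMap ℚ ℂ) = ⊥ := by
    rw [LinearMap.ker_eq_bot]
    intro a b hab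
    simpa using hab
  obtain ⟨g, hg⟩ := LinearMap.exists_leftInverse_of_injective (Algebra.linearMap ℚ ℂ) hinj
  have hgq : ∀ q : ℚ, g (q : ℂ) = q := by
    intro q
    have := LinearMap.congr_fun hg q
    simpa using this
  let Ψ : (Fin n → ℂ) →ₗ[ℚ] (S →ₗ[ℚ] ℚ) :=
    LinearMap.mk₂ ℚ (fun v (s : S) => g (pairQ v (s : Fin n → ℚ)))
      (fun v w s => by rw [pairQ_add_left, map_add])
      (fun c v s => by rw [pairQ_qsmul_left, ← Rat.smul_def, map_smul])
      (fun v s t => by rw [Submodule.coe_add, pairQ_add_right, map_add])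
      (fun c v s => by rw [Submodule.coe_smul, pairQ_smul_right, ← Rat.smul_def, map_smul])
  have hΨ : ∀ v (s : S), Ψ v s = g (pairQ v (s : Fin n → ℚ)) := fun v s => rfl
  have := rowSpan_fd n
  have := rowPerp_fd n S
  have hrn := LinearMap.finrank_range_add_finrank_ker (Ψ.domRestrict (rowSpan n))
  rw [finrank_rowSpan n hn] at hrn
  have h1 : Module.finrank ℚ ↥(LinearMap.range (Ψ.domRestrict (rowSpan n))) ≤
      Module.finrank ℚ S := by
    have := Submodule.finrank_le (LinearMap.range (Ψ.domRestrict (rowSpan n)))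
    rwa [Subspace.dual_finrank_eq] at this
  have h2 : Module.finrank ℚ ↥(LinearMap.ker (Ψ.domRestrict (rowSpan n))) ≤ rperp n S := by
    rw [← Submodule.finrank_map_subtype_eq (rowSpan n) (LinearMap.ker (Ψ.domRestrict (rowSpan n)))]
    apply Submodule.finrank_mono
    rintro _ ⟨v, hv, rfl⟩
    refine ⟨v.2, fun s hs => ?_⟩
    obtain ⟨q, hq⟩ := hrat v.1 v.2 s hs
    have h0 : Ψ v.1 ⟨s, hs⟩ = 0 := by
      have := LinearMap.mem_ker.mp hv
      rw [LinearMap.domRestrict_apply] at this
      rw [this]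
      rfl
    rw [hΨ] at h0
    change g (pairQ v.1 s) = 0 at h0
    rw [hq, hgq] at h0
    change pairQ v.1 s = 0
    rw [hq, h0]
    simp
  omega

/-- If all rows are rational on `S`, then `S` is small. -/
lemma finrank_le_tau (n : ℕ) (hn : n ≠ 0) (S : Submodule ℚ (Fin n → ℚ))
    (hrat : ∀ j, dftRow n j ∈ ratOn S) : Module.finrank ℚ S ≤ (Nat.divisors n).card := by
  let Λ : (Fin n → ℚ) →ₗ[ℚ] (Fin n → ℂ) :=
    LinearMap.pi fun j => pairR (dftRow n j)
  have hΛ : ∀ x j, Λ x j = pairQ (dftRow n j) x := fun x j => rfl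
  have hΛsum : ∀ x, Λ x = ∑ k, x k • dftRow n k := by
    intro x
    funext j
    rw [hΛ, Finset.sum_apply]
    unfold pairQ
    refine Finset.sum_congr rfl fun k _ => ?_
    rw [Pi.smul_apply, dftRow_apply, dftRow_apply, Rat.smul_def, mul_comm, Nat.mul_comm]
  have hinj : Function.Injective Λ := by
    intro x y hxy
    have h0 : Λ (x - y) = 0 := by rw [map_sub, hxy, sub_self]
    rw [hΛsum] at h0
    have h1 := (Fintype.linearIndependent_iff.mp (dftRow_li n hn)) (x - y) h0
    funext k
    have := h1 k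
    rw [Pi.sub_apply, sub_eq_zero] at this
    exact this
  have hle : S.map Λ ≤ Submodule.span ℚ (Set.range fun k : Fin n => unitVec k) ⊓
      Submodule.span ℚ (Set.range (dftRow n)) := by
    rintro _ ⟨x, hx, rfl⟩
    constructor
    · have hq : ∀ j, ∃ q : ℚ, pairQ (dftRow n j) x = (q : ℂ) := fun j => hrat j x hx
      choose q hq using hq
      have : Λ x = coeLin n q := by
        funext j
        rw [hΛ, hq, coeLin_apply]
      rw [SetLike.mem_coe, this]
      exact coeLin_mem (fun k => Submodule.subset_span (Set.mem_range_self k)) q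
    · rw [SetLike.mem_coe, hΛsum]
      exact Submodule.sum_mem _ fun k _ =>
        Submodule.smul_mem _ _ (Submodule.subset_span (Set.mem_range_self k))
  have hmap : Module.finrank ℚ ↥(S.map Λ) = Module.finrank ℚ S :=
    (Submodule.equivMapOfInjective Λ hinj S).finrank_eq.symm
  have hfin : FiniteDimensional ℚ ↥(LinearMap.range (pullback n hn)) :=
    Module.Finite.range (pullback n hn)
  calc Module.finrank ℚ S = Module.finrank ℚ ↥(S.map Λ) := hmap.symm
    _ ≤ Module.finrank ℚ ↥(LinearMap.range (pullback n hn)) :=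
        Submodule.finrank_mono (le_trans hle (inf_le_range n hn))
    _ ≤ Module.finrank ℚ (Nat.divisors n → ℚ) := LinearMap.finrank_range_le _
    _ = (Nat.divisors n).card := by simp

/-- The potential inequality for general length. -/
theorem gen_potential {n : ℕ} [NeZero n] (V : Submodule ℚ (Fin n → ℂ)) [FiniteDimensional ℚ V]
    (hunit : ∀ k, unitVec k ∈ V) (hrows : rowSpan n ≤ V)
    (hfg : ∀ S : Submodule ℚ (Fin n → ℚ), (∃ v ∈ V, v ∉ ratOn S) →
      ∃ w ∈ V, ∃ c : ℂ, w ∈ ratOn S ∧ c • w ∈ V ∧ c • w ∉ ratOn S)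
    (u : (ZMod n)ˣ) (gs : List ((Fin n → ℂ) × ℕ)) (hper : Periodic (rowOp n (u : ZMod n)) gs)
    (hcov : rowSpan n ≤ gspan (rowOp n (u : ZMod n)) gs) :
    ∀ k : ℕ, ∀ S : Submodule ℚ (Fin n → ℚ), Module.finrank ℚ S = k →
      2 * Module.finrank ℚ S + n + dperp V S +
          2 * gpot (rowOp n (u : ZMod n)) (rowPerp n S) gs ≤
        Module.finrank ℚ V + rperp n S +
          2 * (gs.map fun p => (Nat.divisors p.2).card).sum + 2 * (Nat.divisors n).card := by
  have hn : n ≠ 0 := NeZero.ne n
  intro k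
  induction k using Nat.strong_induction_on with
  | _ k ih =>
    intro S hk
    have hgle := gpot_le_sum (rowOp n (u : ZMod n)) (rowPerp n S) gs
    by_cases hall : ∀ v ∈ V, v ∈ ratOn S
    · have h1 := dperp_add_finrank_le V hunit S
      have h2 := rperp_ge n hn S (fun v hv => hall v (hrows hv))
      have h3 := finrank_le_tau n hn S
        (fun j => hall _ (hrows (Submodule.subset_span (Set.mem_range_self j))))
      omega
    · have hex : ∃ v ∈ V, v ∉ ratOn S := by
        by_contra hcon
        apply hall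
        intro v hv
        by_contra hv'
        exact hcon ⟨v, hv, hv'⟩
      obtain ⟨w, hw, c, hwS, hcw, hcwS⟩ := hfg S hex
      obtain ⟨a, ha, haH, hsup, hD⟩ := cut_step V S hw hwS hcw hcwS
      have hHS : cutBy S w ≤ S := cutBy_le S w
      have hlt : cutBy S w < S := lt_of_le_of_ne hHS (fun h => haH (by rw [h]; exact ha))
      have hfin : Module.finrank ℚ (cutBy S w) < Module.finrank ℚ S :=
        Submodule.finrank_lt_finrank_of_lt hlt
      have hfin2 := finrank_le_of_le_sup_span hsup
      have hih := ih (Module.finrank ℚ (cutBy S w)) (hk ▸ hfin) (cutBy S w) rfl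
      have hDr := dperp_rperp V hrows hHS
      have hr := rperp_mono n hHS
      have hinvS := rowPerp_inv n u S
      have hinvH := rowPerp_inv n u (cutBy S w)
      have hg := gpot_mono hinvS hinvH (rowPerp_anti n hHS) gs hper
      rcases Nat.lt_or_ge (rperp n S) (rperp n (cutBy S w)) with hlt' | hge'
      · have hne : rowPerp n S ≠ rowPerp n (cutBy S w) := by
          intro heq
          unfold rperp at hlt'
          rw [heq] at hlt'
          exact lt_irrefl _ hlt'
        have hlt2 : rowPerp n S < rowPerp n (cutBy S w) :=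
          lt_of_le_of_ne (rowPerp_anti n hHS) hne
        have hg2 := gpot_lt hinvS hinvH hlt2 gs hper
          (le_trans (inf_le_left : rowPerp n (cutBy S w) ≤ rowSpan n) hcov)
        omega
      · omega

end Vale.Agent.Lib.P344
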