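import Mathlib
import Vale.Agent.Lib.P344.GenPot

/-!
Scalar multiplications, general length: the bound in terms of a unit `u` modulo `n` and a list
of residues with periods that meets every orbit of the multiplication by `u`.
-/

namespace Vale.Agent.Lib.P344

open Polynomial

/-- The index with a given residue. -/
def idxOf (n : ℕ) [NeZero n] (j : ZMod n) : Fin n := ⟨j.val, ZMod.val_lt j⟩

lemma mulIdx_idxOf (n : ℕ) [NeZero n] (a j : ZMod n) :
    mulIdx n a (idxOf n j) = idxOf n (a * j) := by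
  apply Fin.ext
  change (a * ((j.val : ℕ) : ZMod n)).val = (a * j).val
  rw [ZMod.natCast_zmod_val]

lemma idxOf_natCast (n : ℕ) [NeZero n] (k : Fin n) : idxOf n ((k : ℕ) : ZMod n) = k := by
  apply Fin.ext
  change (((k : ℕ) : ZMod n)).val = (k : ℕ)
  rw [ZMod.val_natCast_of_lt k.2]

/-- Scalar multiplications for general length. -/
theorem scalar_bound_gen {n A M : ℕ} (hn : 2 ≤ n) {X : Set (Fin n → ℂ)} (h : Reach n A M X)
    (hrows : ∀ j, dftRow n j ∈ X) (u : (ZMod n)ˣ) (L : List (ZMod n × ℕ))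
    (hper : ∀ p ∈ L, 0 < p.2 ∧ (u : ZMod n) ^ p.2 * p.1 = p.1)
    (hcov : ∀ x : ZMod n, ∃ p ∈ L, ∃ t : ℕ, x = (u : ZMod n) ^ t * p.1) :
    2 * n ≤ M + 2 * (L.map fun p => (Nat.divisors p.2).card).sum + 2 * (Nat.divisors n).card := by
  have hne : NeZero n := ⟨by omega⟩
  have hfdV := h.finiteDimensional_span
  have hunit : ∀ k, unitVec k ∈ Submodule.span ℚ X :=
    fun k => Submodule.subset_span (h.unit_mem k)
  have hrowsV : rowSpan n ≤ Submodule.span ℚ X :=
    Submodule.span_mono (by rintro _ ⟨j, rfl⟩; exact hrows j)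
  obtain ⟨gs, hgs⟩ : ∃ gs : List ((Fin n → ℂ) × ℕ),
      gs = L.map (fun p => (dftRow n (idxOf n p.1), p.2)) := ⟨_, rfl⟩
  have hper' : Periodic (rowOp n (u : ZMod n)) gs := by
    intro q hq
    rw [hgs] at hq
    obtain ⟨p, hp, rfl⟩ := List.mem_map.mp hq
    obtain ⟨h0, h1⟩ := hper p hp
    refine ⟨h0, ?_⟩
    change (rowOp n (u : ZMod n) ^ p.2) (dftRow n (idxOf n p.1)) = dftRow n (idxOf n p.1)
    rw [rowOp_pow, rowOp_dftRow, mulIdx_idxOf, h1]
  have hcov' : rowSpan n ≤ gspan (rowOp n (u : ZMod n)) gs := by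
    apply Submodule.span_le.mpr
    rintro _ ⟨k, rfl⟩
    obtain ⟨p, hp, t, ht⟩ := hcov ((k : ℕ) : ZMod n)
    have hmem : (dftRow n (idxOf n p.1), p.2) ∈ gs := by
      rw [hgs]
      exact List.mem_map.mpr ⟨p, hp, rfl⟩
    have hk : dftRow n k = (rowOp n (u : ZMod n) ^ t) (dftRow n (idxOf n p.1)) := by
      rw [rowOp_pow, rowOp_dftRow, mulIdx_idxOf, ← ht, idxOf_natCast]
    rw [SetLike.mem_coe, hk]
    exact cycSpan_le_gspan _ gs _ hmem (pow_mem_cycSpan _ _ t)
  have hsum : (gs.map fun p => (Nat.divisors p.2).card).sum =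
      (L.map fun p => (Nat.divisors p.2).card).sum := by
    rw [hgs, List.map_map]
    rfl
  have hpot := gen_potential (Submodule.span ℚ X) hunit hrowsV (fun S hex => h.first_gate S hex)
    u gs hper' hcov' _ ⊤ rfl
  rw [rperp_top, hsum, finrank_top, Module.finrank_fin_fun] at hpot
  have h4 := h.finrank_span_le
  omega

end Vale.Agent.Lib.P344
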