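import Mathlib
import Vale.Agent.Lib.P344.GenMain

/-!
Total gate count for general length, in terms of a unit `u` modulo `n` and a set of residues
meeting every orbit of the multiplication by `u`.
-/

namespace Vale.Agent.Lib.P344

open ArithmeticFunction

/-- Total gate count from a list of residues with periods. -/
theorem list_bound (n : ℕ) (hn : 2 ≤ n) (u : (ZMod n)ˣ) (L : List (ZMod n × ℕ))
    (hper : ∀ p ∈ L, 0 < p.2 ∧ (u : ZMod n) ^ p.2 * p.1 = p.1)
    (hcov : ∀ x : ZMod n, ∃ p ∈ L, ∃ t : ℕ, x = (u : ZMod n) ^ t * p.1)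
    (C : List Gate) (hC : ComputesDFT n C) :
    5 * n ≤ C.length + 2 * (L.map fun p => (Nat.divisors p.2).card).sum +
      2 * (Nat.divisors n).card + cardFactors n + 3 := by
  obtain ⟨A, M, hlen, hR⟩ := reach_runV n C
  have hrows : ∀ j, dftRow n j ∈ {v | v ∈ runV n C} :=
    fun j => dftRow_mem_of_computes (by omega) hC j
  have h1 := addsub_bound hn hR hrows
  have h2 := scalar_bound_gen hn hR hrows u L hper hcov
  omega

/-- Total gate count from a set of residues meeting every orbit. -/
theorem gen_bound (n : ℕ) (hn : 2 ≤ n) (u : (ZMod n)ˣ) (J : Finset (ZMod n))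
    (hJ : ∀ x : ZMod n, ∃ j ∈ J, ∃ t : ℕ, x = (u : ZMod n) ^ t * j)
    (C : List Gate) (hC : ComputesDFT n C) :
    5 * n ≤ C.length + 2 * (J.card * (Nat.divisors (orderOf u)).card) +
      2 * (Nat.divisors n).card + cardFactors n + 3 := by
  have hne : NeZero n := ⟨by omega⟩
  have hord : 0 < orderOf u := orderOf_pos u
  have hpow : (u : ZMod n) ^ orderOf u = 1 := by
    rw [← Units.val_pow_eq_pow_val, pow_orderOf_eq_one, Units.val_one]
  have h := list_bound n hn u (J.toList.map fun j => (j, orderOf u))
    (by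
      intro p hp
      obtain ⟨j, _, rfl⟩ := List.mem_map.mp hp
      exact ⟨hord, by rw [hpow, one_mul]⟩)
    (by
      intro x
      obtain ⟨j, hj, t, ht⟩ := hJ x
      exact ⟨(j, orderOf u), List.mem_map.mpr ⟨j, Finset.mem_toList.mpr hj, rfl⟩, t, ht⟩)
    C hC
  have hsum : ((J.toList.map fun j => (j, orderOf u)).map
      fun p => (Nat.divisors p.2).card).sum = J.card * (Nat.divisors (orderOf u)).card := by
    rw [List.map_map]
    have : ((fun p : ZMod n × ℕ => (Nat.divisors p.2).card) ∘ fun j => (j, orderOf u)) =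
        fun _ => (Nat.divisors (orderOf u)).card := rfl
    rw [this, List.map_const', List.sum_replicate, Finset.length_toList, smul_eq_mul]
  rw [hsum] at h
  exact h

end Vale.Agent.Lib.P344
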