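import Mathlib
import Vale.Agent.Lib.P344.GenBound

/-!
Length a power of two: every odd residue is plus or minus a power of five, and the resulting
bound.
-/

namespace Vale.Agent.Lib.P344

open ArithmeticFunction

/-- Every unit modulo `2 ^ (j + 2)` is a power of five or minus a power of five. -/
lemma units_two_pow (j : ℕ) (g : (ZMod (2 ^ (j + 2)))ˣ) :
    ∃ t : ℕ, (g : ZMod (2 ^ (j + 2))) = 5 ^ t ∨ (g : ZMod (2 ^ (j + 2))) = -5 ^ t := by
  have hcop : Nat.Coprime 5 (2 ^ (j + 2)) := Nat.Coprime.pow_right _ (by decide)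
  obtain ⟨u5, hu5⟩ : ∃ u5 : (ZMod (2 ^ (j + 2)))ˣ, (u5 : ZMod (2 ^ (j + 2))) = 5 :=
    ⟨ZMod.unitOfCoprime 5 hcop, by rw [ZMod.coe_unitOfCoprime]; rfl⟩
  have hord : orderOf u5 = 2 ^ j := by
    rw [← orderOf_units, hu5]
    exact ZMod.orderOf_five j
  have hcardG : Nat.card (ZMod (2 ^ (j + 2)))ˣ = 2 ^ j * 2 := by
    rw [Nat.card_eq_fintype_card, ZMod.card_units_eq_totient,
      Nat.totient_prime_pow Nat.prime_two (by omega)]
    simp [pow_succ]
  have hcardH : Nat.card (Subgroup.zpowers u5) = 2 ^ j := by rw [Nat.card_zpowers, hord]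
  have hidx : (Subgroup.zpowers u5).index = 2 := by
    have := Subgroup.card_mul_index (Subgroup.zpowers u5)
    rw [hcardH, hcardG] at this
    exact Nat.eq_of_mul_eq_mul_left (by positivity) this
  have h4 : 4 ∣ 2 ^ (j + 2) := ⟨2 ^ j, by ring⟩
  have hker : ∀ h ∈ Subgroup.zpowers u5, ZMod.unitsMap h4 h = 1 := by
    intro h hh
    obtain ⟨z, rfl⟩ := Subgroup.mem_zpowers_iff.mp hh
    have h5 : ZMod.unitsMap h4 u5 = 1 := by
      apply Units.ext
      rw [ZMod.unitsMap_def, Units.coe_map, Units.val_one]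
      change ZMod.castHom h4 (ZMod 4) (u5 : ZMod (2 ^ (j + 2))) = 1
      rw [hu5, map_ofNat]
      decide
    rw [map_zpow, h5, one_zpow]
  have hneg : (-1 : (ZMod (2 ^ (j + 2)))ˣ) ∉ Subgroup.zpowers u5 := by
    intro hmem
    have h1 := congrArg Units.val (hker _ hmem)
    rw [ZMod.unitsMap_def, Units.coe_map, Units.val_one] at h1
    change ZMod.castHom h4 (ZMod 4) ((-1 : (ZMod (2 ^ (j + 2)))ˣ) : ZMod (2 ^ (j + 2))) = 1 at h1
    rw [Units.val_neg, Units.val_one, map_neg, map_one] at h1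
    revert h1
    decide
  obtain ⟨a, ha⟩ := Subgroup.index_eq_two_iff.mp hidx
  have hma : -1 * a ∈ Subgroup.zpowers u5 := by
    rcases ha (-1) with ⟨h1, _⟩ | ⟨h1, _⟩
    · exact h1
    · exact absurd h1 hneg
  have hpow : ∀ h ∈ Subgroup.zpowers u5, ∃ t : ℕ, (h : ZMod (2 ^ (j + 2))) = 5 ^ t := by
    intro h hh
    obtain ⟨t, rfl⟩ := (Submonoid.mem_powers_iff _ _).mp (mem_powers_iff_mem_zpowers.mpr hh)
    exact ⟨t, by rw [Units.val_pow_eq_pow_val, hu5]⟩
  by_cases hg : g ∈ Subgroup.zpowers u5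
  · obtain ⟨t, ht⟩ := hpow g hg
    exact ⟨t, Or.inl ht⟩
  · have hga : g * a ∈ Subgroup.zpowers u5 := by
      rcases ha g with ⟨h1, _⟩ | ⟨h1, _⟩
      · exact h1
      · exact absurd h1 hg
    have heq : -1 * g = (g * a) * (-1 * a)⁻¹ := by
      apply eq_mul_inv_of_mul_eq
      rw [neg_one_mul, neg_one_mul, neg_mul_neg]
    have hmg : -1 * g ∈ Subgroup.zpowers u5 := by
      rw [heq]
      exact Subgroup.mul_mem _ hga (Subgroup.inv_mem _ hma)
    obtain ⟨t, ht⟩ := hpow _ hmg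
    refine ⟨t, Or.inr ?_⟩
    rw [← ht, neg_one_mul, Units.val_neg, neg_neg]

lemma five_pow_modEq (i : ℕ) : 5 ^ 2 ^ (i - 1) ≡ 1 [MOD 2 ^ (i + 1)] := by
  rcases i with _ | j
  · decide
  · have h := pow_orderOf_eq_one (5 : ZMod (2 ^ (j + 2)))
    rw [ZMod.orderOf_five j] at h
    apply (ZMod.natCast_eq_natCast_iff _ _ _).mp
    push_cast
    exact h

/-- The period of the residues `2 ^ (k - 1 - i)` under multiplication by five. -/
lemma five_period (k i : ℕ) (hi : i < k) :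
    (5 : ZMod (2 ^ k)) ^ 2 ^ (i - 1) * 2 ^ (k - 1 - i) = 2 ^ (k - 1 - i) := by
  have h := (five_pow_modEq i).mul_right' (2 ^ (k - 1 - i))
  have hk : 2 ^ (i + 1) * 2 ^ (k - 1 - i) = 2 ^ k := by
    rw [← pow_add]
    congr 1
    omega
  rw [hk, one_mul] at h
  have h2 := (ZMod.natCast_eq_natCast_iff _ _ _).mpr h
  push_cast at h2
  exact h2

/-- The residues `0`, `2 ^ (k - 1 - i)` and `-2 ^ (k - 1 - i)` with their periods under
multiplication by five. -/
def listTwo (k : ℕ) : List (ZMod (2 ^ k) × ℕ) :=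
  (0, 1) :: ((List.range k).map (fun i => ((2 : ZMod (2 ^ k)) ^ (k - 1 - i), 2 ^ (i - 1))) ++
    (List.range k).map (fun i => (-(2 : ZMod (2 ^ k)) ^ (k - 1 - i), 2 ^ (i - 1))))

lemma listTwo_per (k : ℕ) :
    ∀ p ∈ listTwo k, 0 < p.2 ∧ (5 : ZMod (2 ^ k)) ^ p.2 * p.1 = p.1 := by
  intro p hp
  rcases List.mem_cons.mp hp with rfl | hp
  · exact ⟨Nat.one_pos, mul_zero _⟩
  · rcases List.mem_append.mp hp with hp | hp
    · obtain ⟨i, hi, rfl⟩ := List.mem_map.mp hp
      exact ⟨by positivity, five_period k i (List.mem_range.mp hi)⟩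
    · obtain ⟨i, hi, rfl⟩ := List.mem_map.mp hp
      refine ⟨by positivity, ?_⟩
      change (5 : ZMod (2 ^ k)) ^ 2 ^ (i - 1) * -(2 : ZMod (2 ^ k)) ^ (k - 1 - i) =
        -(2 : ZMod (2 ^ k)) ^ (k - 1 - i)
      rw [mul_neg, five_period k i (List.mem_range.mp hi)]

lemma listTwo_cov (j : ℕ) (x : ZMod (2 ^ (j + 2))) :
    ∃ p ∈ listTwo (j + 2), ∃ t : ℕ, x = (5 : ZMod (2 ^ (j + 2))) ^ t * p.1 := by
  by_cases hx : x = 0
  · exact ⟨(0, 1), List.mem_cons_self, 0, by rw [hx, mul_zero]⟩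
  · have hm0 : x.val ≠ 0 := fun h => hx ((ZMod.val_eq_zero x).mp h)
    have hmlt : x.val < 2 ^ (j + 2) := ZMod.val_lt x
    obtain ⟨e, w, hw, hm⟩ := Nat.exists_eq_pow_mul_and_not_dvd hm0 2 (by norm_num)
    have hw0 : 0 < w := by
      rcases Nat.eq_zero_or_pos w with h | h
      · exact absurd (h ▸ dvd_zero 2) hw
      · exact h
    have he : e < j + 2 := by
      have h1 : 2 ^ e ≤ x.val := by
        rw [hm]
        exact Nat.le_mul_of_pos_right _ hw0
      exact (Nat.pow_lt_pow_iff_right (by norm_num : 1 < 2)).mp (lt_of_le_of_lt h1 hmlt)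
    have hcop : Nat.Coprime w (2 ^ (j + 2)) :=
      Nat.Coprime.pow_right _ ((Nat.Prime.coprime_iff_not_dvd Nat.prime_two).mpr hw).symm
    obtain ⟨t, ht⟩ := units_two_pow j (ZMod.unitOfCoprime w hcop)
    rw [ZMod.coe_unitOfCoprime] at ht
    have hxw : x = (2 : ZMod (2 ^ (j + 2))) ^ e * (w : ZMod (2 ^ (j + 2))) := by
      have h1 : x = ((x.val : ℕ) : ZMod (2 ^ (j + 2))) := (ZMod.natCast_zmod_val x).symm
      rw [h1, hm]
      push_cast
      rfl
    have hi : j + 2 - 1 - e < j + 2 := by omega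
    have hie : j + 2 - 1 - (j + 2 - 1 - e) = e := by omega
    rcases ht with ht | ht
    · refine ⟨((2 : ZMod (2 ^ (j + 2))) ^ (j + 2 - 1 - (j + 2 - 1 - e)),
        2 ^ ((j + 2 - 1 - e) - 1)), ?_, t, ?_⟩
      · exact List.mem_cons_of_mem _ (List.mem_append_left _
          (List.mem_map.mpr ⟨j + 2 - 1 - e, List.mem_range.mpr hi, rfl⟩))
      · rw [hxw, ht, hie, mul_comm]
    · refine ⟨(-(2 : ZMod (2 ^ (j + 2))) ^ (j + 2 - 1 - (j + 2 - 1 - e)),
        2 ^ ((j + 2 - 1 - e) - 1)), ?_, t, ?_⟩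
      · exact List.mem_cons_of_mem _ (List.mem_append_right _
          (List.mem_map.mpr ⟨j + 2 - 1 - e, List.mem_range.mpr hi, rfl⟩))
      · rw [hxw, ht, hie]
        ring

lemma card_divisors_two_pow (e : ℕ) : (Nat.divisors (2 ^ e)).card = e + 1 := by
  rw [Nat.divisors_prime_pow Nat.prime_two, Finset.card_map, Finset.card_range]

lemma sumTwo (k : ℕ) :
    2 * ((List.range (k + 1)).map (fun i => (Nat.divisors (2 ^ (i - 1))).card)).sum =
      k ^ 2 + k + 2 := by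
  induction k with
  | zero => simp
  | succ k ih =>
    rw [List.range_succ, List.map_append, List.sum_append, mul_add, ih]
    simp only [List.map_cons, List.map_nil, List.sum_cons, List.sum_nil, add_zero,
      card_divisors_two_pow]
    have : k + 1 - 1 = k := by omega
    rw [this]
    ring

lemma listTwo_sum (k : ℕ) :
    ((listTwo (k + 1)).map fun p => (Nat.divisors p.2).card).sum = k ^ 2 + k + 3 := by
  have h := sumTwo k
  unfold listTwo
  rw [List.map_cons, List.sum_cons, List.map_append, List.sum_append, List.map_map, List.map_map]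
  have e1 : ((fun p : ZMod (2 ^ (k + 1)) × ℕ => (Nat.divisors p.2).card) ∘
      fun i => ((2 : ZMod (2 ^ (k + 1))) ^ (k + 1 - 1 - i), 2 ^ (i - 1))) =
      fun i => (Nat.divisors (2 ^ (i - 1))).card := rfl
  have e2 : ((fun p : ZMod (2 ^ (k + 1)) × ℕ => (Nat.divisors p.2).card) ∘
      fun i => (-(2 : ZMod (2 ^ (k + 1))) ^ (k + 1 - 1 - i), 2 ^ (i - 1))) =
      fun i => (Nat.divisors (2 ^ (i - 1))).card := rfl
  rw [e1, e2]
  simp only [Nat.divisors_one, Finset.card_singleton]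
  omega

/-- Total gate count for length `2 ^ k`, `k ≥ 2`. -/
theorem two_pow_bound (j : ℕ) (C : List Gate) (hC : ComputesDFT (2 ^ (j + 2)) C) :
    5 * 2 ^ (j + 2) ≤ C.length + 2 * (j + 2) ^ 2 + (j + 2) + 11 := by
  have hcop : Nat.Coprime 5 (2 ^ (j + 2)) := Nat.Coprime.pow_right _ (by decide)
  obtain ⟨u5, hu5⟩ : ∃ u5 : (ZMod (2 ^ (j + 2)))ˣ, (u5 : ZMod (2 ^ (j + 2))) = 5 :=
    ⟨ZMod.unitOfCoprime 5 hcop, by rw [ZMod.coe_unitOfCoprime]; rfl⟩
  have hn : 2 ≤ 2 ^ (j + 2) := by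
    calc 2 = 2 ^ 1 := by norm_num
      _ ≤ 2 ^ (j + 2) := Nat.pow_le_pow_right (by norm_num) (by omega)
  have h := list_bound (2 ^ (j + 2)) hn u5 (listTwo (j + 2))
    (by rw [hu5]; exact listTwo_per (j + 2))
    (by rw [hu5]; exact listTwo_cov j) C hC
  have hs := listTwo_sum (j + 1)
  rw [hs, card_divisors_two_pow, cardFactors_apply_prime_pow Nat.prime_two] at h
  have e : 2 * (j + 2) ^ 2 + 2 = 2 * ((j + 1) ^ 2 + (j + 1)) + 2 * j + 6 := by ring
  omega

end Vale.Agent.Lib.P344
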