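import Mathlib
import Vale.Agent.Lib.P344.PowTwo

/-!
Length a prime power: odd primes (cyclic unit group), and the bound for all prime powers.
-/

namespace Vale.Agent.Lib.P344

open ArithmeticFunction

/-- The residues `0` and `p ^ v` with the periods `φ (p ^ (k - v))`. -/
def listOdd (p k : ℕ) : List (ZMod (p ^ k) × ℕ) :=
  (0, 1) :: (List.range k).map (fun v => ((p : ZMod (p ^ k)) ^ v, Nat.totient (p ^ (k - v))))

lemma unit_period (p k v : ℕ) (hp : p.Prime) (hv : v < k) (u : (ZMod (p ^ k))ˣ) :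
    (u : ZMod (p ^ k)) ^ Nat.totient (p ^ (k - v)) * (p : ZMod (p ^ k)) ^ v =
      (p : ZMod (p ^ k)) ^ v := by
  have hne : NeZero (p ^ k) := ⟨pow_ne_zero _ hp.ne_zero⟩
  have hcop : Nat.Coprime (u : ZMod (p ^ k)).val (p ^ (k - v)) :=
    Nat.Coprime.coprime_dvd_right (pow_dvd_pow p (Nat.sub_le k v)) (ZMod.val_coe_unit_coprime u)
  have h := (Nat.ModEq.pow_totient hcop).mul_right' (p ^ v)
  have hk : p ^ (k - v) * p ^ v = p ^ k := by
    rw [← pow_add]
    congr 1
    omega
  rw [hk, one_mul] at h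
  have h2 := (ZMod.natCast_eq_natCast_iff _ _ _).mpr h
  push_cast at h2
  rw [ZMod.natCast_zmod_val] at h2
  exact h2

lemma listOdd_per (p k : ℕ) (hp : p.Prime) (u : (ZMod (p ^ k))ˣ) :
    ∀ q ∈ listOdd p k, 0 < q.2 ∧ (u : ZMod (p ^ k)) ^ q.2 * q.1 = q.1 := by
  intro q hq
  rcases List.mem_cons.mp hq with rfl | hq
  · exact ⟨Nat.one_pos, mul_zero _⟩
  · obtain ⟨v, hv, rfl⟩ := List.mem_map.mp hq
    exact ⟨Nat.totient_pos.mpr (pow_pos hp.pos _), unit_period p k v hp (List.mem_range.mp hv) u⟩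

lemma listOdd_cov (p k : ℕ) (hp : p.Prime) (u : (ZMod (p ^ k))ˣ)
    (hu : ∀ g : (ZMod (p ^ k))ˣ, g ∈ Subgroup.zpowers u) (x : ZMod (p ^ k)) :
    ∃ q ∈ listOdd p k, ∃ t : ℕ, x = (u : ZMod (p ^ k)) ^ t * q.1 := by
  have hne : NeZero (p ^ k) := ⟨pow_ne_zero _ hp.ne_zero⟩
  by_cases hx : x = 0
  · exact ⟨(0, 1), List.mem_cons_self, 0, by rw [hx, mul_zero]⟩
  · have hm0 : x.val ≠ 0 := fun h => hx ((ZMod.val_eq_zero x).mp h)
    have hmlt : x.val < p ^ k := ZMod.val_lt x
    obtain ⟨e, w, hw, hm⟩ := Nat.exists_eq_pow_mul_and_not_dvd hm0 p hp.ne_one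
    have hw0 : 0 < w := by
      rcases Nat.eq_zero_or_pos w with h | h
      · exact absurd (h ▸ dvd_zero p) hw
      · exact h
    have he : e < k := by
      have h1 : p ^ e ≤ x.val := by
        rw [hm]
        exact Nat.le_mul_of_pos_right _ hw0
      exact (Nat.pow_lt_pow_iff_right hp.one_lt).mp (lt_of_le_of_lt h1 hmlt)
    have hcop : Nat.Coprime w (p ^ k) :=
      Nat.Coprime.pow_right _ ((Nat.Prime.coprime_iff_not_dvd hp).mpr hw).symm
    obtain ⟨t, ht⟩ := (Submonoid.mem_powers_iff _ _).mp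
      (mem_powers_iff_mem_zpowers.mpr (hu (ZMod.unitOfCoprime w hcop)))
    have ht' : (u : ZMod (p ^ k)) ^ t = (w : ZMod (p ^ k)) := by
      rw [← Units.val_pow_eq_pow_val, ht, ZMod.coe_unitOfCoprime]
    have hxw : x = (p : ZMod (p ^ k)) ^ e * (w : ZMod (p ^ k)) := by
      have h1 : x = ((x.val : ℕ) : ZMod (p ^ k)) := (ZMod.natCast_zmod_val x).symm
      rw [h1, hm]
      push_cast
      rfl
    refine ⟨((p : ZMod (p ^ k)) ^ e, Nat.totient (p ^ (k - e))), ?_, t, ?_⟩
    · exact List.mem_cons_of_mem _ (List.mem_map.mpr ⟨e, List.mem_range.mpr he, rfl⟩)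
    · rw [hxw, ht', mul_comm]

lemma card_divisors_prime_pow' (p e : ℕ) (hp : p.Prime) : (Nat.divisors (p ^ e)).card = e + 1 := by
  rw [Nat.divisors_prime_pow hp, Finset.card_map, Finset.card_range]

lemma card_divisors_totient (p m : ℕ) (hp : p.Prime) (hm : 0 < m) :
    (Nat.divisors (Nat.totient (p ^ m))).card = m * (Nat.divisors (p - 1)).card := by
  have hcop : Nat.Coprime (p ^ (m - 1)) (p - 1) :=
    Nat.Coprime.pow_left _ ((Nat.coprime_self_sub_right hp.pos).mpr (Nat.coprime_one_right p))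
  rw [Nat.totient_prime_pow hp hm, Nat.Coprime.card_divisors_mul hcop,
    card_divisors_prime_pow' p (m - 1) hp]
  congr 1
  omega

lemma listOdd_sum (p k : ℕ) (hp : p.Prime) :
    ((listOdd p k).map fun q => (Nat.divisors q.2).card).sum ≤
      1 + k * (k * (Nat.divisors (p - 1)).card) := by
  unfold listOdd
  rw [List.map_cons, List.sum_cons, List.map_map]
  have h1 : ((List.range k).map ((fun q : ZMod (p ^ k) × ℕ => (Nat.divisors q.2).card) ∘
      fun v => ((p : ZMod (p ^ k)) ^ v, Nat.totient (p ^ (k - v))))).sum ≤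
      ((List.range k).map ((fun q : ZMod (p ^ k) × ℕ => (Nat.divisors q.2).card) ∘
      fun v => ((p : ZMod (p ^ k)) ^ v, Nat.totient (p ^ (k - v))))).length •
        (k * (Nat.divisors (p - 1)).card) := by
    apply List.sum_le_card_nsmul
    intro x hx
    obtain ⟨v, hv, rfl⟩ := List.mem_map.mp hx
    have hvk : v < k := List.mem_range.mp hv
    change (Nat.divisors (Nat.totient (p ^ (k - v)))).card ≤ k * (Nat.divisors (p - 1)).card
    rw [card_divisors_totient p (k - v) hp (by omega)]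
    exact Nat.mul_le_mul_right _ (Nat.sub_le k v)
  rw [List.length_map, List.length_range, smul_eq_mul] at h1
  simp only [Nat.divisors_one, Finset.card_singleton]
  omega

/-- Total gate count for length a power of an odd prime. -/
theorem odd_pow_bound (p k : ℕ) (hp : p.Prime) (hp2 : p ≠ 2) (hk : 1 ≤ k) (C : List Gate)
    (hC : ComputesDFT (p ^ k) C) :
    5 * p ^ k ≤ C.length + 2 * k ^ 2 * (Nat.divisors (p - 1)).card + 3 * k + 7 := by
  have hne : NeZero (p ^ k) := ⟨pow_ne_zero _ hp.ne_zero⟩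
  have hcyc := ZMod.isCyclic_units_of_prime_pow p hp hp2 k
  obtain ⟨u, hu⟩ := IsCyclic.exists_generator (α := (ZMod (p ^ k))ˣ)
  have hn : 2 ≤ p ^ k := by
    calc 2 ≤ p := hp.two_le
      _ = p ^ 1 := (pow_one p).symm
      _ ≤ p ^ k := Nat.pow_le_pow_right hp.pos hk
  have h := list_bound (p ^ k) hn u (listOdd p k) (listOdd_per p k hp u)
    (listOdd_cov p k hp u hu) C hC
  have hs := listOdd_sum p k hp
  rw [card_divisors_prime_pow' p k hp, cardFactors_apply_prime_pow hp] at h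
  have e : 2 * k ^ 2 * (Nat.divisors (p - 1)).card =
      2 * (k * (k * (Nat.divisors (p - 1)).card)) := by ring
  omega

/-- Total gate count for length a prime power. -/
theorem prime_pow_bound (p k : ℕ) (hp : p.Prime) (hk : 1 ≤ k) (C : List Gate)
    (hC : ComputesDFT (p ^ k) C) :
    5 * p ^ k ≤ C.length + 2 * k ^ 2 * (Nat.divisors (p - 1)).card + 3 * k + 7 := by
  by_cases hp2 : p = 2
  · subst hp2
    have h1 : (Nat.divisors (2 - 1)).card = 1 := by simp
    rw [h1, mul_one]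
    rcases Nat.lt_or_ge k 2 with hk2 | hk2
    · have hk1 : k = 1 := by omega
      subst hk1
      norm_num
    · obtain ⟨j, rfl⟩ : ∃ j, k = j + 2 := ⟨k - 2, by omega⟩
      have h := two_pow_bound j C hC
      omega
  · exact odd_pow_bound p k hp hp2 hk C hC

end Vale.Agent.Lib.P344
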